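import Crest.Agent.N250.MP.Max

/-!
# Row 250 (helper60): Laplacian and heat operator of ambient functions, sphere avoidance
-/

set_option autoImplicit false
open MeasureTheory Set Filter Topology
open scoped ContDiff InnerProductSpace
open Crest.GeometryTopology.MCF

noncomputable section

namespace Crest.Agent.N250.MP

variable {F : Mv}

/-- the second fundamental form through an ambient extension of the normal -/
theorem A_eq (hF : F.Reg) {p : ST} (hp : p ∈ F.M) {N : ST → E} (hN : DifferentiableAt ℝ N p)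
    (hn : F.n =ᶠ[𝓝[F.M] p] N) (a b : Fin 3) :
    F.A a b p = fderiv ℝ N p (F.PL p (ee a), 0) b := by
  have h1 := (EuclideanSpace.proj b : E →L[ℝ] ℝ).hasFDerivAt.comp p hN.hasFDerivAt
  rw [Mv.A, D_eq hF hp h1.differentiableAt (hn.mono fun q hq => by simp [Mv.nu, hq]), h1.fderiv]
  simp

theorem DD_amb (hF : F.Reg) {p : ST} (hp : p ∈ F.M) : ∃ S : E →L[ℝ] E,
    (∀ a b, F.A a b p = S (F.PL p (ee a)) b) ∧
    ∀ f g : ST → ℝ, ContDiffAt ℝ 2 g p → f =ᶠ[𝓝[F.M] p] g → ∀ a b, F.D a (F.D b f) p =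
      fderiv ℝ (fderiv ℝ g) p (F.PL p (ee a), 0) (F.PL p (ee b), 0) -
        F.A a b p * fderiv ℝ g p (F.n p, 0) - F.n p b * fderiv ℝ g p (S (F.PL p (ee a)), 0) := by
  obtain ⟨N, hN, hn⟩ := n_ext hF hp
  have hNd := hN.differentiableAt (by simp)
  have hn0 : N p = F.n p := (hn.eq_of_nhdsWithin hp).symm
  let Y : Fin 3 → ST → E := fun b q => ee b - N q b • N q
  refine ⟨(fderiv ℝ N p).comp (ContinuousLinearMap.inl ℝ E ℝ), fun a b => A_eq hF hp hNd hn a b,
    fun f g hg h a b => ?_⟩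
  have h1 := (EuclideanSpace.proj b : E →L[ℝ] ℝ).hasFDerivAt.comp p hNd.hasFDerivAt
  have hY := (h1.smul hNd.hasFDerivAt).const_sub (ee b)
  have h3 : DifferentiableAt ℝ (fderiv ℝ g) p :=
    (hg.fderiv_right (m := 1) (by norm_num)).differentiableAt (by simp)
  have h4 := hY.prodMk (hasFDerivAt_const (0 : ℝ) p)
  have h5 := h3.hasFDerivAt.clm_apply h4
  have h6 : F.D b f =ᶠ[𝓝[F.M] p] fun q => fderiv ℝ g q (Y b q, 0) := by
    filter_upwards [nhdsWithin_le_nhds (hg.eventually (by simp)), self_mem_nhdsWithin,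
      eventually_eventually_nhdsWithin.2 h, hn] with q q1 q2 q3 q4
    rw [D_eq hF q2 (q1.differentiableAt (by simp)) q3]
    simp [Y, Mv.PL, q4, EuclideanSpace.inner_single_right]
  rw [D_eq hF hp h5.differentiableAt h6, h5.fderiv, A_eq hF hp hNd hn]
  have e0 : ee b - F.n p b • F.n p = F.PL p (ee b) := by
    simp [Mv.PL, EuclideanSpace.inner_single_right]
  have e1 : ∀ (r s : ℝ) (u w : E), fderiv ℝ g p (-(s • w) + -(r • u), 0) =
      -(s * fderiv ℝ g p (w, 0)) - r * fderiv ℝ g p (u, 0) := fun r s u w => by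
    have : ((-(s • w) + -(r • u), 0) : ST) = -(s • (w, 0)) - r • (u, 0) := by
      ext1 <;> simp [sub_eq_add_neg]
    rw [this, map_sub, map_neg, map_smul, map_smul]; rfl
  simp [hn0, e0, e1]
  ring

/-- Laplacian of an ambient function -/
theorem lap_amb (hF : F.Reg) {p : ST} (hp : p ∈ F.M) {f g : ST → ℝ} (hg : ContDiffAt ℝ 2 g p)
    (h : f =ᶠ[𝓝[F.M] p] g) : F.lap f p =
      ∑ a, fderiv ℝ (fderiv ℝ g) p (F.PL p (ee a), 0) (F.PL p (ee a), 0) -
        F.H p * fderiv ℝ g p (F.n p, 0) := by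
  obtain ⟨S, -, hS⟩ := DD_amb hF hp
  have e0 : ∑ a, F.n p a * fderiv ℝ g p (S (F.PL p (ee a)), 0) = 0 := by
    let L : E →L[ℝ] ℝ := ((fderiv ℝ g p).comp (ContinuousLinearMap.inl ℝ E ℝ)).comp S
    have e1 : ∑ a, F.n p a * fderiv ℝ g p (S (F.PL p (ee a)), 0) =
        L (∑ a, F.n p a • F.PL p (ee a)) := by simp [L]
    rw [e1, ← PL_sum, sum_ee, Mv.PL, inner_nn hF hp, one_smul, sub_self, map_zero]
  simp only [N222.Pre.lap, Finset.sum_apply, Mv.H]
  rw [Finset.sum_congr rfl fun a _ => hS f g hg h a a, Finset.sum_sub_distrib,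
    Finset.sum_sub_distrib, e0, Finset.sum_mul, sub_zero]

/-- heat operator of an ambient function along a mean curvature flow -/
theorem box_amb (hF : F.IsMCF) {p : ST} (hp : p ∈ F.M) {f g : ST → ℝ} (hg : ContDiffAt ℝ 2 g p)
    (h : f =ᶠ[𝓝[F.M] p] g) : F.box f p = fderiv ℝ g p (0, 1) -
      ∑ a, fderiv ℝ (fderiv ℝ g) p (F.PL p (ee a), 0) (F.PL p (ee a), 0) := by
  have e : ((F.V p • F.n p, 1) : ST) = F.V p • (F.n p, 0) + (0, 1) := by ext1 <;> simp
  simp only [Mv.box, Pi.sub_apply]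
  rw [lap_amb hF.1 hp hg h, Dt_eq hF.1 hp (hg.differentiableAt (by simp)) h, e, map_add, map_smul,
    hF.2 p hp, smul_eq_mul]
  ring

theorem sum_PL_sq (hF : F.Reg) {p : ST} (hp : p ∈ F.M) :
    ∑ a, ⟪F.PL p (ee a), F.PL p (ee a)⟫_ℝ = 2 := by
  have h := inner_nn hF hp
  have e : ∀ a, ⟪F.PL p (ee a), F.PL p (ee a)⟫_ℝ = 1 - F.n p a * F.n p a := fun a => by
    nth_rewrite 1 [Mv.PL]
    rw [inner_sub_left, inner_smul_left, inner_PL hF hp]
    simp [Mv.PL, EuclideanSpace.inner_single_left, EuclideanSpace.inner_single_right]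
  simp only [e, Finset.sum_sub_distrib]
  rw [PiLp.inner_apply] at h
  simp only [RCLike.inner_apply, conj_trivial] at h
  rw [h]; norm_num

/-- `box (a - b t - |x - y|²) = 4 - b` -/
theorem box_sq (hF : F.IsMCF) {p : ST} (hp : p ∈ F.M) (y : E) (a b : ℝ) :
    F.box (fun q => a - b * q.2 - ‖q.1 - y‖ ^ 2) p = 4 - b := by
  let fs := ContinuousLinearMap.fst ℝ E ℝ
  let B : ST →L[ℝ] ST →L[ℝ] ℝ := (innerSL ℝ (E := E)).bilinearComp fs fs
  let L : ST →L[ℝ] ℝ := -(b • ContinuousLinearMap.snd ℝ E ℝ) + (2 : ℝ) • (innerSL ℝ y).comp fs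
  have h1 : ∀ q : ST, HasFDerivAt (fun q : ST => a - b * q.2 - ‖q.1 - y‖ ^ 2)
      (L - (2 : ℝ) • B q) q := fun q => by
    have := ((hasFDerivAt_snd (𝕜 := ℝ) (p := q)).const_mul b |>.const_sub a).sub
      ((hasFDerivAt_fst (𝕜 := ℝ) (p := q)).sub_const y).norm_sq
    refine this.congr_fderiv (ContinuousLinearMap.ext fun v => ?_)
    simp [L, B, fs]
    ring
  have h2 : fderiv ℝ (fun q : ST => a - b * q.2 - ‖q.1 - y‖ ^ 2) = fun q => L - (2 : ℝ) • B q :=
    funext fun q => (h1 q).fderiv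
  have h3 : HasFDerivAt (fun q => L - (2 : ℝ) • B q) (-((2 : ℝ) • B)) p :=
    (B.hasFDerivAt.const_smul (2 : ℝ)).const_sub L
  have hs : ContDiff ℝ 2 (fun q : ST => a - b * q.2 - ‖q.1 - y‖ ^ 2) :=
    (contDiff_const.sub (contDiff_const.mul contDiff_snd)).sub
      ((contDiff_fst.sub contDiff_const).norm_sq ℝ)
  rw [box_amb hF hp hs.contDiffAt EventuallyEq.rfl, h2, h3.fderiv]
  have e : ∀ v : E, (-((2 : ℝ) • B)) ((v, 0) : ST) ((v, 0) : ST) = -2 * ⟪v, v⟫_ℝ := fun v => by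
    simp [B, fs]
  simp only [e, ← Finset.mul_sum, sum_PL_sq hF.1 hp]
  simp [L, B, fs]
  ring

/-- sphere avoidance -/
theorem avoid (hF : F.IsMCF) (y : E) {r t₁ t₂ : ℝ} (hr : 0 ≤ r)
    (hP : F.Proper (Metric.ball y r ×ˢ Icc t₁ t₂)) (h0 : ∀ x ∈ F.sl t₁, r ≤ dist x y) :
    ∀ t ∈ Icc t₁ t₂, ∀ x ∈ F.sl t, r ^ 2 - 4 * (t - t₁) ≤ dist x y ^ 2 := by
  intro t ht x hx
  let f : ST → ℝ := fun q => (r ^ 2 + 4 * t₁) - 4 * q.2 - ‖q.1 - y‖ ^ 2
  have hs : ContDiff ℝ ∞ f :=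
    (contDiff_const.sub (contDiff_const.mul contDiff_snd)).sub
      ((contDiff_fst.sub contDiff_const).norm_sq ℝ)
  have := wmaxS_holds F hF.1 f t₁ t₂ 0 hs.contDiffOn (fun ε hε => ?_) (fun p hp hpt => ?_)
    (fun p hp _ _ _ hl => ?_) (x, t) hx ht
  · simp only [f] at this
    rw [dist_eq_norm]; linarith
  · have hb : ∀ p : ST, p.2 ∈ Icc t₁ t₂ → ε ≤ f p → p ∈ Metric.ball y r ×ˢ Icc t₁ t₂ :=
      fun p h1 h2 => ⟨by
        rw [Metric.mem_ball, dist_eq_norm]
        refine lt_of_pow_lt_pow_left₀ 2 hr ?_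
        simp only [f] at h2
        linarith [h1.1], h1⟩
    have hc : IsClosed {p : ST | p.2 ∈ Icc t₁ t₂ ∧ ε ≤ f p} :=
      (isClosed_Icc.preimage continuous_snd).inter (isClosed_le continuous_const hs.continuous)
    refine ((isCompact_closedBall y r).prod (isCompact_Icc (a := t₁) (b := t₂))).of_isClosed_subset
      (isClosed_of_closure_subset fun p hp => ?_) fun p hp => ?_
    · have h1 := hc.closure_subset (closure_mono (fun q hq => hq.2) hp)
      exact ⟨hP p (closure_mono (fun q hq => hq.1) hp) (hb p h1.1 h1.2), h1⟩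
    · exact prod_mono Metric.ball_subset_closedBall Subset.rfl (hb p hp.2.1 hp.2.2)
  · have h1 := h0 p.1 (by rw [← hpt]; exact hp)
    rw [dist_eq_norm] at h1
    simp only [f, hpt]
    nlinarith [pow_le_pow_left₀ hr h1 2]
  · have := box_sq hF hp y (r ^ 2 + 4 * t₁) 4
    simp only [Mv.box, Pi.sub_apply] at this
    simp only [f] at hl ⊢
    linarith

theorem avoidS_holds : AvoidS := fun _ hF y _ _ _ hr hP h0 => avoid hF y hr hP h0

end Crest.Agent.N250.MP

end
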