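import Crest.Agent.N250.MP.Chart
import Crest.Agent.N250.MP.Avoid
import Crest.Agent.N250.Re.Comm
import Crest.Agent.N250.A.Stm

/-!
# Row 250 (helper71): curves in the track and the two-point maximum principle
-/

set_option autoImplicit false
open MeasureTheory Set Filter Topology Function
open scoped ContDiff InnerProductSpace
open Crest.GeometryTopology.MCF

noncomputable section

namespace Crest.Agent.N250.MP

variable {F : Mv} {p : ST}

/-- a curve in the slice with velocity `P v` and normal acceleration -/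
theorem slice_curve (hF : F.Reg) (hp : p ∈ F.M) (v : E) : ∃ γ γ' : ℝ → E, γ 0 = p.1 ∧
    (∀ᶠ s in 𝓝 (0 : ℝ), HasDerivAt γ (γ' s) s ∧ (γ s, p.2) ∈ F.M) ∧ γ' 0 = F.PL p v ∧
    HasDerivAt γ' (-Aq F p v v • F.n p) 0 := by
  obtain ⟨Ψ, U, hU, h0, hs, hx, hM, h1, h2⟩ := chartS_holds F hF p hp
  have hl : ∀ s : ℝ, HasDerivAt (fun s : ℝ => ((s • v, p.2) : ST)) (v, 0) s := fun s => by
    simpa using ((hasDerivAt_id s).smul_const v).prodMk (hasDerivAt_const s p.2)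
  have e0 : (((0 : ℝ) • v, p.2) : ST) = (0, p.2) := by rw [zero_smul]
  have hev : ∀ᶠ s in 𝓝 (0 : ℝ), ((s • v, p.2) : ST) ∈ U :=
    (hl 0).continuousAt.preimage_mem_nhds (by rw [e0]; exact hU.mem_nhds h0)
  refine ⟨fun s => Ψ (s • v, p.2), fun s => fderiv ℝ Ψ (s • v, p.2) (v, 0), by simpa using hx,
    hev.mono fun s hs' => ⟨?_, hM _ hs'⟩, by simpa using h1 v 0, ?_⟩
  · exact ((hs.contDiffAt (hU.mem_nhds hs')).differentiableAt (by simp)).hasFDerivAt.comp_hasDerivAt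
      s (hl s)
  · have hY : HasFDerivAt (fun q => fderiv ℝ Ψ q (v, 0))
        (fderiv ℝ (fun q => fderiv ℝ Ψ q (v, 0)) (0, p.2)) ((0 : ℝ) • v, p.2) := by
      rw [e0]
      exact ((((hs.contDiffAt (hU.mem_nhds h0)).fderiv_right (m := ∞) (by simp)).clm_apply
        contDiffAt_const).differentiableAt (by simp)).hasFDerivAt
    have := hY.comp_hasDerivAt 0 (hl 0)
    rw [h2 v v] at this
    exact this

/-- a curve following the normal motion to first order -/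
theorem time_curve (hF : F.Reg) (hp : p ∈ F.M) : ∃ c : ℝ → E, c p.2 = p.1 ∧
    (∀ᶠ s in 𝓝 p.2, (c s, s) ∈ F.M) ∧ HasDerivAt c (F.V p • F.n p) p.2 := by
  obtain ⟨Ψ, U, hU, h0, hs, hx, hM, h1, -⟩ := chartS_holds F hF p hp
  have hl : HasDerivAt (fun s : ℝ => (((0 : E), s) : ST)) (0, 1) p.2 :=
    (hasDerivAt_const _ (0 : E)).prodMk (hasDerivAt_id _)
  have hev : ∀ᶠ s in 𝓝 p.2, (((0 : E), s) : ST) ∈ U :=
    hl.continuousAt.preimage_mem_nhds (hU.mem_nhds h0)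
  refine ⟨fun s => Ψ (0, s), hx, hev.mono fun s hs' => hM _ hs', ?_⟩
  have := ((hs.contDiffAt (hU.mem_nhds h0)).differentiableAt (by simp)).hasFDerivAt.comp_hasDerivAt
    p.2 hl
  rw [h1, show F.PL p 0 = 0 by simp [Mv.PL], zero_add, one_mul] at this
  exact this

/-- second order condition at a local minimum -/
theorem second_min {f f' : ℝ → ℝ} {c : ℝ} (hm : IsLocalMin f 0)
    (h1 : ∀ᶠ θ in 𝓝 (0:ℝ), HasDerivAt f (f' θ) θ) (h2 : HasDerivAt f' c 0) : 0 ≤ c := by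
  have h0 : HasDerivAt f (f' 0) 0 := h1.self_of_nhds
  have e0 : f' 0 = 0 := hm.hasDerivAt_eq_zero h0
  by_contra hc
  push Not at hc
  have hd : deriv f =ᶠ[𝓝 0] f' := h1.mono fun θ h => h.deriv
  have hdd : deriv (deriv f) 0 = c := by rw [hd.deriv_eq, h2.deriv]
  have hM : IsLocalMax f 0 :=
    isLocalMax_of_deriv_deriv_neg (by rw [hdd]; exact hc) (by rw [h0.deriv, e0]) h0.continuousAt
  have hcst : f =ᶠ[𝓝 0] fun _ => f 0 := (hm.and hM).mono fun θ h => le_antisymm h.2 h.1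
  have : deriv f =ᶠ[𝓝 0] fun _ => (0:ℝ) := by
    filter_upwards [hcst.deriv] with θ h
    simpa using h
  rw [this.deriv_eq] at hdd
  simp at hdd
  linarith

/-- first order condition at a minimum from the left -/
theorem left_min {f : ℝ → ℝ} {c t : ℝ} (hm : ∀ᶠ s in 𝓝 t, s ≤ t → f t ≤ f s)
    (h : HasDerivAt f c t) : c ≤ 0 := by
  have h1 : Tendsto (slope f t) (𝓝[<] t) (𝓝 c) :=
    (hasDerivAt_iff_tendsto_slope.1 h).mono_left (nhdsWithin_mono _ fun s hs => ne_of_lt hs)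
  refine le_of_tendsto h1 ?_
  filter_upwards [nhdsWithin_le_nhds hm, self_mem_nhdsWithin] with s hs hs'
  have hs' : s < t := hs'
  rw [slope_def_field]
  exact div_nonpos_of_nonneg_of_nonpos (sub_nonneg.2 (hs hs'.le)) (sub_nonpos.2 hs'.le)

/-- the reflection exchanging `n` and `-m` -/
def refl2 (n m v : E) : E := v - (⟪v, n + m⟫_ℝ / (1 + ⟪n, m⟫_ℝ)) • (n + m)

section refl
variable {n m : E} (hn : ⟪n, n⟫_ℝ = 1) (hm : ⟪m, m⟫_ℝ = 1) (hc : 0 ≤ ⟪n, m⟫_ℝ)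

theorem refl2_adj (v w : E) : ⟪refl2 n m v, w⟫_ℝ = ⟪v, refl2 n m w⟫_ℝ := by
  simp only [refl2, inner_sub_left, inner_sub_right, real_inner_smul_left, inner_smul_right,
    real_inner_comm (n + m) w]
  ring

include hn hm hc

theorem refl2_iso (v w : E) : ⟪refl2 n m v, refl2 n m w⟫_ℝ = ⟪v, w⟫_ℝ := by
  have h : ⟪n + m, n + m⟫_ℝ = 2 * (1 + ⟪n, m⟫_ℝ) := by
    rw [inner_add_left, inner_add_right, inner_add_right, hn, hm, real_inner_comm n m]; ring
  have h1 : 1 + ⟪n, m⟫_ℝ ≠ 0 := by linarith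
  simp only [refl2, inner_sub_left, inner_sub_right, real_inner_smul_left, inner_smul_right,
    real_inner_comm (n + m) w, h]
  field_simp
  ring

theorem refl2_tr (B : Fin 3 → Fin 3 → ℝ) :
    ∑ a, ∑ i, ∑ j, B i j * (refl2 n m (ee a) i * refl2 n m (ee a) j) = ∑ i, B i i := by
  have h : ∀ i j, ∑ a, refl2 n m (ee a) i * refl2 n m (ee a) j = if i = j then 1 else 0 := by
    intro i j
    have e : ∀ a i, refl2 n m (ee a) i = refl2 n m (ee i) a := fun a i => by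
      rw [← inner_ee, refl2_adj, real_inner_comm, inner_ee]
    simp only [e _ i, e _ j]
    rw [← inner_eq_sum, refl2_iso hn hm hc, inner_ee]
    simp [ee, eq_comm]
  rw [Finset.sum_comm]
  refine Finset.sum_congr rfl fun i _ => ?_
  rw [Finset.sum_comm]
  simp only [← Finset.mul_sum, h, mul_ite, mul_one, mul_zero, Finset.sum_ite_eq, Finset.mem_univ,
    if_true]

theorem refl2_sum : ∑ a, ‖(ee a - ⟪n, ee a⟫_ℝ • n) -
    (refl2 n m (ee a) - ⟪m, refl2 n m (ee a)⟫_ℝ • m)‖ ^ 2 = 2 * (1 - ⟪n, m⟫_ℝ) := by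
  have h1 : 1 + ⟪n, m⟫_ℝ ≠ 0 := by linarith
  have h : ⟪n + m, n + m⟫_ℝ = 2 * (1 + ⟪n, m⟫_ℝ) := by
    rw [inner_add_left, inner_add_right, inner_add_right, hn, hm, real_inner_comm n m]; ring
  have e : ∀ a, (ee a - ⟪n, ee a⟫_ℝ • n) - (refl2 n m (ee a) - ⟪m, refl2 n m (ee a)⟫_ℝ • m) =
      ((m a - ⟪n, m⟫_ℝ * n a) / (1 + ⟪n, m⟫_ℝ)) • (n + m) := fun a => by
    have e1 : ⟪m, refl2 n m (ee a)⟫_ℝ = -n a := by
      rw [refl2, inner_sub_right, inner_smul_right, inner_add_right, inner_add_right, hm,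
        real_inner_comm n m, real_inner_comm n, real_inner_comm m, inner_ee, inner_ee]
      field_simp
      ring
    have e2 : (m a - ⟪n, m⟫_ℝ * n a) / (1 + ⟪n, m⟫_ℝ) = (n a + m a) / (1 + ⟪n, m⟫_ℝ) - n a := by
      field_simp
      ring
    rw [e1, e2, refl2, inner_add_right, real_inner_comm n, real_inner_comm m, inner_ee, inner_ee]
    module
  simp only [e, norm_smul, mul_pow, ← real_inner_self_eq_norm_sq, h, Real.norm_eq_abs, sq_abs,
    div_pow]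
  rw [← Finset.sum_mul, ← Finset.sum_div]
  have e3 : ∑ a, (m a - ⟪n, m⟫_ℝ * n a) ^ 2 = 1 - ⟪n, m⟫_ℝ ^ 2 := by
    have a1 := inner_eq_sum n n
    have a2 := inner_eq_sum m m
    have a3 := inner_eq_sum n m
    rw [hn] at a1; rw [hm] at a2
    simp only [Fin.sum_univ_three] at a1 a2 a3 ⊢
    generalize ⟪n, m⟫_ℝ = c at *
    linear_combination (-1 : ℝ) * a2 + 2 * c * a3 - c ^ 2 * a1
  rw [e3]
  field_simp
  ring

end refl

/-- `‖x' - y'‖² - g (x', s)` on pairs of points of the slices `s ≤ t` is locally minimal at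
`(x, y, t)` -/
def TwoMin (F : Mv) (g : ST → ℝ) (x y : E) (t : ℝ) : Prop :=
  ∀ᶠ z : E × E × ℝ in 𝓝 (x, y, t), (z.1, z.2.2) ∈ F.M → (z.2.1, z.2.2) ∈ F.M → z.2.2 ≤ t →
    ‖x - y‖ ^ 2 - g (x, t) ≤ ‖z.1 - z.2.1‖ ^ 2 - g (z.1, z.2.2)

/-- the same in one slice -/
def TwoMinS (F : Mv) (g : E → ℝ) (x y : E) (t : ℝ) : Prop :=
  ∀ᶠ z : E × E in 𝓝 (x, y), (z.1, t) ∈ F.M → (z.2, t) ∈ F.M →
    ‖x - y‖ ^ 2 - g x ≤ ‖z.1 - z.2‖ ^ 2 - g z.1

theorem TwoMin.slice {g : ST → ℝ} {x y : E} {t : ℝ} (h : TwoMin F g x y t) :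
    TwoMinS F (fun z => g (z, t)) x y t := by
  have : Tendsto (fun z : E × E => (z.1, z.2, t)) (𝓝 (x, y)) (𝓝 (x, y, t)) :=
    (by fun_prop : Continuous fun z : E × E => (z.1, z.2, t)).tendsto (x, y)
  exact (this.eventually h).mono fun z hz h1 h2 => hz h1 h2 le_rfl

variable {x y : E} {t : ℝ}

theorem two_curves {g : E → ℝ} (h : TwoMinS F g x y t) {γ η : ℝ → E} (h1 : γ 0 = x) (h2 : η 0 = y)
    (c1 : ContinuousAt γ 0) (c2 : ContinuousAt η 0) (m1 : ∀ᶠ s in 𝓝 (0 : ℝ), (γ s, t) ∈ F.M)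
    (m2 : ∀ᶠ s in 𝓝 (0 : ℝ), (η s, t) ∈ F.M) :
    IsLocalMin (fun s => ⟪γ s - η s, γ s - η s⟫_ℝ - g (γ s)) 0 := by
  have : Tendsto (fun s => (γ s, η s)) (𝓝 0) (𝓝 (x, y)) := by
    rw [← h1, ← h2]; exact c1.prodMk c2
  filter_upwards [this.eventually h, m1, m2] with s a b c
  simpa only [h1, h2, real_inner_self_eq_norm_sq] using a b c

/-- first order condition at `y` -/
theorem two_normal (hF : F.Reg) {g : E → ℝ} (hx : (x, t) ∈ F.M) (hy : (y, t) ∈ F.M)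
    (h : TwoMinS F g x y t) : F.PL (y, t) (x - y) = 0 := by
  obtain ⟨η, η', e0, ev, e1, -⟩ := slice_curve hF hy (x - y)
  have d := ev.self_of_nhds.1
  have hm := two_curves (γ := fun _ => x) h rfl e0 continuousAt_const d.continuousAt
    (Eventually.of_forall fun _ => hx) (ev.mono fun _ h => h.2)
  have d1 := (hasDerivAt_const (0 : ℝ) x).sub d
  have := hm.hasDerivAt_eq_zero ((d1.inner ℝ d1).sub_const _)
  simp only [Pi.sub_apply, e0, e1, zero_sub, inner_neg_left, inner_neg_right] at this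
  rw [real_inner_comm] at this
  have h3 : ⟪F.PL (y, t) (x - y), x - y⟫_ℝ = 0 := by linarith
  have h4 : ⟪F.PL (y, t) (x - y), F.PL (y, t) (x - y)⟫_ℝ = 0 := by
    conv_lhs => rw [show ∀ w, ⟪w, F.PL (y, t) (x - y)⟫_ℝ =
      ⟪w, x - y - ⟪F.n (y, t), x - y⟫_ℝ • F.n (y, t)⟫_ℝ from fun _ => rfl]
    rw [inner_sub_right, h3, inner_smul_right, real_inner_comm (F.n (y, t)) (F.PL _ _),
      inner_PL hF hy]; ring
  exact inner_self_eq_zero.1 h4

/-- first order condition at `x` -/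
theorem two_grad (hF : F.Reg) {g : E → ℝ} (hx : (x, t) ∈ F.M) (hy : (y, t) ∈ F.M)
    (hg : DifferentiableAt ℝ g x) (h : TwoMinS F g x y t) (v : E) :
    fderiv ℝ g x (F.PL (x, t) v) = 2 * ⟪x - y, F.PL (x, t) v⟫_ℝ := by
  obtain ⟨γ, γ', e0, ev, e1, -⟩ := slice_curve hF hx v
  have d := ev.self_of_nhds.1
  have hm := two_curves (η := fun _ => y) h e0 rfl d.continuousAt continuousAt_const
    (ev.mono fun _ h => h.2) (Eventually.of_forall fun _ => hy)
  have d1 := d.sub (hasDerivAt_const (0 : ℝ) y)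
  have d2 : HasDerivAt (fun s => g (γ s)) (fderiv ℝ g x (γ' 0)) 0 :=
    hg.hasFDerivAt.comp_hasDerivAt_of_eq 0 d e0.symm
  have := hm.hasDerivAt_eq_zero ((d1.inner ℝ d1).sub d2)
  simp only [Pi.sub_apply, e0, e1, sub_zero] at this
  rw [real_inner_comm (x - y)] at this
  linarith

/-- second order condition in the slice -/
theorem two_second (hF : F.Reg) {g : E → ℝ} (hx : (x, t) ∈ F.M) (hy : (y, t) ∈ F.M)
    (hg : ContDiffAt ℝ 2 g x) (h : TwoMinS F g x y t) :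
    ∑ a, fderiv ℝ (fderiv ℝ g) x (F.PL (x, t) (ee a)) (F.PL (x, t) (ee a))
      - F.H (x, t) * fderiv ℝ g x (F.n (x, t)) ≤
      4 * (1 - |⟪F.n (x, t), F.n (y, t)⟫_ℝ|) - 2 * F.H (x, t) * ⟪x - y, F.n (x, t)⟫_ℝ
        + 2 * F.H (y, t) * ⟪x - y, F.n (y, t)⟫_ℝ := by
  obtain ⟨m, hm, hc, habs, hP⟩ : ∃ m : E, ⟪m, m⟫_ℝ = 1 ∧ 0 ≤ ⟪F.n (x, t), m⟫_ℝ ∧
      |⟪F.n (x, t), F.n (y, t)⟫_ℝ| = ⟪F.n (x, t), m⟫_ℝ ∧
      ∀ v, F.PL (y, t) v = v - ⟪m, v⟫_ℝ • m := by
    rcases le_total 0 ⟪F.n (x, t), F.n (y, t)⟫_ℝ with h0 | h0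
    · exact ⟨_, hF.inner_n hy, h0, abs_of_nonneg h0, fun _ => rfl⟩
    · refine ⟨-F.n (y, t), by simpa using hF.inner_n hy, by rw [inner_neg_right]; linarith,
        by rw [inner_neg_right, abs_of_nonpos h0], fun v => ?_⟩
      rw [inner_neg_left, neg_smul_neg]; rfl
  have hn := hF.inner_n hx
  set n := F.n (x, t) with hnd
  have hg1 : ∀ᶠ z in 𝓝 x, DifferentiableAt ℝ g z :=
    (hg.eventually (by simp)).mono fun z hz => hz.differentiableAt (by simp)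
  have hg2 : HasFDerivAt (fderiv ℝ g) (fderiv ℝ (fderiv ℝ g) x) x :=
    ((hg.fderiv_right (m := 1) (by norm_num)).differentiableAt (by simp)).hasFDerivAt
  have key : ∀ a, fderiv ℝ (fderiv ℝ g) x (F.PL (x, t) (ee a)) (F.PL (x, t) (ee a))
      - Aq F (x, t) (ee a) (ee a) * fderiv ℝ g x n ≤
      2 * ‖F.PL (x, t) (ee a) - F.PL (y, t) (refl2 n m (ee a))‖ ^ 2
        - 2 * Aq F (x, t) (ee a) (ee a) * ⟪x - y, n⟫_ℝ
        + 2 * Aq F (y, t) (refl2 n m (ee a)) (refl2 n m (ee a)) * ⟪x - y, F.n (y, t)⟫_ℝ := by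
    intro a
    obtain ⟨γ, γ', e0, ev, e1, e2⟩ := slice_curve hF hx (ee a)
    obtain ⟨η, η', f0, fv, f1, f2⟩ := slice_curve hF hy (refl2 n m (ee a))
    have d := ev.self_of_nhds.1
    have d' := fv.self_of_nhds.1
    have hmin := two_curves h e0 f0 d.continuousAt d'.continuousAt (ev.mono fun _ h => h.2)
      (fv.mono fun _ h => h.2)
    have ht : Tendsto γ (𝓝 0) (𝓝 x) := by rw [show x = γ 0 from e0.symm]; exact d.continuousAt
    have D1 : ∀ᶠ s in 𝓝 (0 : ℝ), HasDerivAt (fun s => ⟪γ s - η s, γ s - η s⟫_ℝ - g (γ s))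
        (⟪γ s - η s, γ' s - η' s⟫_ℝ + ⟪γ' s - η' s, γ s - η s⟫_ℝ - fderiv ℝ g (γ s) (γ' s)) s := by
      filter_upwards [ev, fv, ht.eventually hg1] with s a b c
      exact ((a.1.sub b.1).inner ℝ (a.1.sub b.1)).sub (c.hasFDerivAt.comp_hasDerivAt s a.1)
    have D2 := ((((d.sub d').inner ℝ (e2.sub f2)).add ((e2.sub f2).inner ℝ (d.sub d'))).sub
      ((hg2.comp_hasDerivAt_of_eq 0 d e0.symm).clm_apply e2))
    have := second_min hmin D1 D2
    simp only [Pi.sub_apply, comp_apply, e0, e1, f0, f1, real_inner_self_eq_norm_sq, map_smul,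
      smul_eq_mul, ← hnd] at this
    rw [real_inner_comm (x - y), inner_sub_right, inner_smul_right, inner_smul_right] at this
    linarith
  have s1 : ∑ a, Aq F (x, t) (ee a) (ee a) = F.H (x, t) := by
    simp [Aq, Mv.H, ee, Finset.sum_apply]
  have s2 : ∑ a, Aq F (y, t) (refl2 n m (ee a)) (refl2 n m (ee a)) = F.H (y, t) := by
    simp only [Aq, Mv.H, Finset.sum_apply]
    exact refl2_tr hn hm hc _
  have s3 : ∑ a, ‖F.PL (x, t) (ee a) - F.PL (y, t) (refl2 n m (ee a))‖ ^ 2 = 2 * (1 - ⟪n, m⟫_ℝ) := by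
    simp only [hP]
    exact refl2_sum hn hm hc
  have := Finset.sum_le_sum fun a (_ : a ∈ Finset.univ) => key a
  simp only [Finset.sum_sub_distrib, Finset.sum_add_distrib, ← Finset.sum_mul, ← Finset.mul_sum,
    s1, s2, s3] at this
  rw [habs]
  linarith

/-- first order condition in time -/
theorem two_time (hF : F.Reg) {g : ST → ℝ} (hx : (x, t) ∈ F.M) (hy : (y, t) ∈ F.M)
    (hg : DifferentiableAt ℝ g (x, t)) (h : TwoMin F g x y t) :
    2 * F.V (x, t) * ⟪x - y, F.n (x, t)⟫_ℝ - 2 * F.V (y, t) * ⟪x - y, F.n (y, t)⟫_ℝ ≤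
      fderiv ℝ g (x, t) (F.V (x, t) • F.n (x, t), 1) := by
  obtain ⟨γ, e0, ev, e1⟩ := time_curve hF hx
  obtain ⟨η, f0, fv, f1⟩ := time_curve hF hy
  simp only at e0 ev e1 f0 fv f1
  have ht : Tendsto (fun s => (γ s, η s, s)) (𝓝 t) (𝓝 (x, y, t)) := by
    rw [← e0, ← f0]; exact e1.continuousAt.prodMk (f1.continuousAt.prodMk continuousAt_id)
  have hm : ∀ᶠ s in 𝓝 t, s ≤ t → ⟪γ t - η t, γ t - η t⟫_ℝ - g (γ t, t) ≤
      ⟪γ s - η s, γ s - η s⟫_ℝ - g (γ s, s) := by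
    filter_upwards [ht.eventually h, ev, fv] with s a b c hs
    simpa only [e0, f0, real_inner_self_eq_norm_sq] using a b c hs
  have d2 : HasDerivAt (fun s => g (γ s, s)) (fderiv ℝ g (x, t) (F.V (x, t) • F.n (x, t), 1)) t :=
    hg.hasFDerivAt.comp_hasDerivAt_of_eq t (e1.prodMk (hasDerivAt_id t)) (by rw [e0])
  have := left_min hm (((e1.sub f1).inner ℝ (e1.sub f1)).sub d2)
  simp only [Pi.sub_apply, e0, f0] at this
  rw [real_inner_comm (x - y), inner_sub_right, inner_smul_right, inner_smul_right] at this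
  linarith

/-- TWO-POINT LEMMA, ambient form (`g` is `C¹` in spacetime, `C²` in space) -/
theorem two_amb (hF : F.IsMCF) {g : ST → ℝ} (hx : (x, t) ∈ F.M) (hy : (y, t) ∈ F.M)
    (hg : DifferentiableAt ℝ g (x, t)) (hg2 : ContDiffAt ℝ 2 (fun z => g (z, t)) x)
    (h : TwoMin F g x y t) :
    -4 * (1 - |⟪F.n (x, t), F.n (y, t)⟫_ℝ|) ≤ dT g (x, t) -
      ∑ a, fderiv ℝ (fderiv ℝ fun z => g (z, t)) x (F.PL (x, t) (ee a)) (F.PL (x, t) (ee a)) := by
  have h1 := two_second hF.1 hx hy hg2 h.slice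
  have h2 := two_time hF.1 hx hy hg h
  have e : fderiv ℝ (fun z => g (z, t)) x (F.n (x, t)) = ⟪gradX g x t, F.n (x, t)⟫_ℝ := by
    rw [gradX, gradient, InnerProductSpace.toDual_symm_apply]
  rw [fderiv_split hg, hF.2 _ hx, hF.2 _ hy, inner_smul_right] at h2
  rw [e] at h1
  simp only at h2
  linarith

theorem fd_slice {g : ST → ℝ} (hg : DifferentiableAt ℝ g (x, t)) (v : E) :
    fderiv ℝ (fun z => g (z, t)) x v = fderiv ℝ g (x, t) (v, 0) := by
  have := hg.hasFDerivAt.comp x (hasFDerivAt_prodMk_left (𝕜 := ℝ) x t)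
  exact congrArg (fun L : E →L[ℝ] ℝ => L v) this.fderiv

theorem snd_slice {g : ST → ℝ} (hg : ContDiffAt ℝ 2 g (x, t)) (v w : E) :
    fderiv ℝ (fderiv ℝ fun z => g (z, t)) x v w = fderiv ℝ (fderiv ℝ g) (x, t) (v, 0) (w, 0) := by
  have hs : ContDiffAt ℝ 2 (fun z => g (z, t)) x :=
    hg.comp x (contDiffAt_id.prodMk contDiffAt_const)
  have d1 : HasFDerivAt (fderiv ℝ fun z => g (z, t)) (fderiv ℝ (fderiv ℝ fun z => g (z, t)) x) x :=
    ((hs.fderiv_right (m := 1) (by norm_num)).differentiableAt (by simp)).hasFDerivAt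
  have d2 : HasFDerivAt (fderiv ℝ g) (fderiv ℝ (fderiv ℝ g) (x, t)) (x, t) :=
    ((hg.fderiv_right (m := 1) (by norm_num)).differentiableAt (by simp)).hasFDerivAt
  have d3 := (d2.comp x (hasFDerivAt_prodMk_left (𝕜 := ℝ) x t)).clm_apply
    (hasFDerivAt_const ((w, 0) : ST) x)
  have d4 := d1.clm_apply (hasFDerivAt_const w x)
  have ev : ∀ᶠ z in 𝓝 x, DifferentiableAt ℝ g (z, t) :=
    ((by fun_prop : Continuous fun z : E => ((z, t) : ST)).tendsto x).eventually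
      ((hg.eventually (by simp)).mono fun z hz => hz.differentiableAt (by simp))
  have := (d4.congr_of_eventuallyEq (ev.mono fun z hz => (fd_slice hz w).symm)).unique d3
  simpa using congrArg (fun L : E →L[ℝ] ℝ => L v) this

theorem lap_congr {f g : ST → ℝ} (hp : p ∈ F.M) (e : f =ᶠ[𝓝[F.M] p] g) : F.lap f p = F.lap g p := by
  change (∑ a, F.D a (F.D a f)) p = (∑ a, F.D a (F.D a g)) p
  simp only [Finset.sum_apply]
  refine Finset.sum_congr rfl fun a _ => Mv.D_congr hp ?_ a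
  filter_upwards [eventually_eventually_nhdsWithin.2 e, self_mem_nhdsWithin] with q hq hqM
  exact Mv.D_congr hqM hq a

theorem TwoMin.congr {f g : ST → ℝ} (hx : (x, t) ∈ F.M) (h : TwoMin F f x y t)
    (e : f =ᶠ[𝓝[F.M] (x, t)] g) : TwoMin F g x y t := by
  have : Tendsto (fun z : E × E × ℝ => ((z.1, z.2.2) : ST)) (𝓝 (x, y, t)) (𝓝 (x, t)) :=
    (by fun_prop : Continuous fun z : E × E × ℝ => ((z.1, z.2.2) : ST)).tendsto (x, y, t)
  filter_upwards [h, this.eventually (eventually_nhdsWithin_iff.1 e)] with z a b h1 h2 h3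
  rw [← b h1, ← e.eq_of_nhdsWithin hx]
  exact a h1 h2 h3

theorem sum_PL_in (hF : F.Reg) (hp : p ∈ F.M) (v : E) :
    ∑ a, ⟪v, F.PL p (ee a)⟫_ℝ * ⟪v, F.PL p (ee a)⟫_ℝ = ‖v‖ ^ 2 - ⟪v, F.n p⟫_ℝ ^ 2 := by
  have a1 := inner_eq_sum (F.n p) (F.n p)
  have a2 := inner_eq_sum v v
  have a3 := inner_eq_sum v (F.n p)
  rw [hF.inner_n hp] at a1
  rw [real_inner_self_eq_norm_sq] at a2
  simp only [Mv.PL, inner_sub_right, inner_smul_right, inner_ee, Fin.sum_univ_three] at a1 a2 a3 ⊢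
  generalize ⟪v, F.n p⟫_ℝ = c at *
  linear_combination (-1 : ℝ) * a2 + 2 * c * a3 - c ^ 2 * a1

/-- at a normal pair `⟨x - y, n x⟩² = |x - y|² cos²` -/
theorem inner_sq_of_normal (hF : F.Reg) (hy : (y, t) ∈ F.M) (h : F.PL (y, t) (x - y) = 0) (n : E) :
    ⟪x - y, n⟫_ℝ ^ 2 = ‖x - y‖ ^ 2 * ⟪n, F.n (y, t)⟫_ℝ ^ 2 := by
  have e : x - y = ⟪F.n (y, t), x - y⟫_ℝ • F.n (y, t) := sub_eq_zero.1 h
  generalize ⟪F.n (y, t), x - y⟫_ℝ = c at e
  rw [e, norm_smul, hF.norm_n hy, real_inner_smul_left, mul_one, Real.norm_eq_abs, sq_abs, mul_pow,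
    real_inner_comm]

/-- TWO-POINT LEMMA in one slice, for `f` of class `C²` on the track near `(x, t)` -/
theorem two_slice (hF : F.Reg) {f : ST → ℝ} (hx : (x, t) ∈ F.M) (hy : (y, t) ∈ F.M)
    (hf : ContDiffWithinAt ℝ 2 f F.M (x, t)) (h : TwoMin F f x y t) :
    F.PL (y, t) (x - y) = 0 ∧ (∀ a, F.D a f (x, t) = 2 * ⟪x - y, F.PL (x, t) (ee a)⟫_ℝ) ∧
    F.gam f f (x, t) = 4 * ‖x - y‖ ^ 2 * (1 - ⟪F.n (x, t), F.n (y, t)⟫_ℝ ^ 2) ∧
    F.lap f (x, t) ≤ 4 * (1 - |⟪F.n (x, t), F.n (y, t)⟫_ℝ|) - 2 * F.H (x, t) * ⟪x - y, F.n (x, t)⟫_ℝ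
        + 2 * F.H (y, t) * ⟪x - y, F.n (y, t)⟫_ℝ ∧
    2 * F.V (x, t) * ⟪x - y, F.n (x, t)⟫_ℝ - 2 * F.V (y, t) * ⟪x - y, F.n (y, t)⟫_ℝ ≤
      F.Dt f (x, t) := by
  obtain ⟨g, hg, e⟩ := exists_ext (m := 2) hF hx hf
  have h' := h.congr hx e
  have hd : DifferentiableAt ℝ g (x, t) := hg.differentiableAt (by simp)
  have hs : ContDiffAt ℝ 2 (fun z => g (z, t)) x :=
    hg.comp x (contDiffAt_id.prodMk contDiffAt_const)
  have h0 := two_normal hF hx hy h'.slice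
  have h1 : ∀ a, F.D a f (x, t) = 2 * ⟪x - y, F.PL (x, t) (ee a)⟫_ℝ := fun a => by
    rw [D_eq hF hx hd e, ← fd_slice hd, two_grad hF hx hy (hs.differentiableAt (by simp)) h'.slice]
  refine ⟨h0, h1, ?_, ?_, ?_⟩
  · change (∑ a, F.D a f * F.D a f) (x, t) = _
    simp only [Finset.sum_apply, Pi.mul_apply, h1]
    have := sum_PL_in hF hx (x - y)
    rw [inner_sq_of_normal hF hy h0] at this
    simp only [Fin.sum_univ_three] at this ⊢
    linear_combination 4 * this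
  · have := two_second hF hx hy hs h'.slice
    simp only [snd_slice hg, fd_slice hd] at this
    rwa [lap_amb hF hx hg e]
  · rw [Dt_eq hF hx hd e]; exact two_time hF hx hy hd h'

/-- TWO-POINT LEMMA for the squared distance -/
theorem two_sq (hF : F.IsMCF) {f : ST → ℝ} (hx : (x, t) ∈ F.M) (hy : (y, t) ∈ F.M)
    (hf : ContDiffWithinAt ℝ 2 f F.M (x, t)) (h : TwoMin F f x y t) :
    F.PL (y, t) (x - y) = 0 ∧
    F.gam f f (x, t) = 4 * ‖x - y‖ ^ 2 * (1 - ⟪F.n (x, t), F.n (y, t)⟫_ℝ ^ 2) ∧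
    -4 * (1 - |⟪F.n (x, t), F.n (y, t)⟫_ℝ|) ≤ F.box f (x, t) := by
  obtain ⟨h0, -, h2, h3, h4⟩ := two_slice hF.1 hx hy hf h
  refine ⟨h0, h2, ?_⟩
  rw [hF.2 _ hx, hF.2 _ hy] at h4
  change _ ≤ F.Dt f (x, t) - F.lap f (x, t)
  linarith

theorem sum_B_PL (B : ST →L[ℝ] ST →L[ℝ] ℝ) (hF : F.Reg) (hp : p ∈ F.M) :
    ∑ a, B (F.PL p (ee a), 0) (F.PL p (ee a), 0) =
      ∑ a, B (ee a, 0) (ee a, 0) - B (F.n p, 0) (F.n p, 0) := by
  have e : ∀ a, ((F.PL p (ee a), 0) : ST) = (ee a, 0) - F.n p a • (F.n p, 0) := fun a => by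
    ext1
    · simp only [Mv.PL, inner_ee, Prod.fst_sub, Prod.smul_fst]
    · simp
  have e1 : ((F.n p, 0) : ST) = ∑ a, F.n p a • ((ee a, 0) : ST) := by
    ext1
    · rw [Prod.fst_sum]; exact eq_sum_ee _
    · rw [Prod.snd_sum]; simp
  have a1 := inner_eq_sum (F.n p) (F.n p)
  rw [hF.inner_n hp] at a1
  have b1 := congrArg (fun w => B w (F.n p, 0)) e1
  have b2 := congrArg (fun w => B (F.n p, 0) w) e1
  simp only [e, map_sub, map_smul, sub_apply, smul_apply, smul_eq_mul, map_add, add_apply,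
    Fin.sum_univ_three] at a1 b1 b2 ⊢
  linear_combination b1 + b2 - B (F.n p, 0) (F.n p, 0) * a1

theorem d2_eq {g : ST → ℝ} (hg : ContDiffAt ℝ 2 g p) (v : E) :
    A.d2 g p v = fderiv ℝ (fderiv ℝ g) p (v, 0) (v, 0) := by
  have d2 : HasFDerivAt (fderiv ℝ g) (fderiv ℝ (fderiv ℝ g) p) p :=
    ((hg.fderiv_right (m := 1) (by norm_num)).differentiableAt (by simp)).hasFDerivAt
  rw [A.d2, (d2.clm_apply (hasFDerivAt_const ((v, 0) : ST) p)).fderiv]
  simp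

/-- `hb` is the heat operator of the flow on ambient functions -/
theorem hb_eq (hF : F.IsMCF) (hp : p ∈ F.M) {g : ST → ℝ} (hg : ContDiffAt ℝ 2 g p) :
    A.hb (F.n p) g p = F.box g p := by
  rw [box_amb hF hp hg (EventuallyEq.refl _ _), sum_B_PL _ hF.1 hp, A.hb]
  simp only [d2_eq hg]

theorem exp_fd {g : ST → ℝ} {q : ST} (hg : DifferentiableAt ℝ g q) (v : ST) :
    fderiv ℝ (fun q => Real.exp (2 * g q)) q v = 2 * Real.exp (2 * g q) * fderiv ℝ g q v := by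
  rw [(hg.hasFDerivAt.const_mul 2).exp.fderiv]
  simp only [smul_apply, smul_eq_mul]; ring

theorem exp_fd2 {g : ST → ℝ} (hg : ContDiffAt ℝ 2 g p) (v : ST) :
    fderiv ℝ (fderiv ℝ fun q => Real.exp (2 * g q)) p v v = 2 * Real.exp (2 * g p) *
      (fderiv ℝ (fderiv ℝ g) p v v + 2 * (fderiv ℝ g p v * fderiv ℝ g p v)) := by
  have hf : ContDiffAt ℝ 2 (fun q => Real.exp (2 * g q)) p := (contDiffAt_const.mul hg).exp
  have d1 : HasFDerivAt (fderiv ℝ fun q => Real.exp (2 * g q))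
      (fderiv ℝ (fderiv ℝ fun q => Real.exp (2 * g q)) p) p :=
    ((hf.fderiv_right (m := 1) (by norm_num)).differentiableAt (by simp)).hasFDerivAt
  have d2 : HasFDerivAt (fderiv ℝ g) (fderiv ℝ (fderiv ℝ g) p) p :=
    ((hg.fderiv_right (m := 1) (by norm_num)).differentiableAt (by simp)).hasFDerivAt
  have ev : ∀ᶠ q in 𝓝 p, DifferentiableAt ℝ g q :=
    (hg.eventually (by simp)).mono fun z hz => hz.differentiableAt (by simp)
  have d3 := (((ev.self_of_nhds.hasFDerivAt.const_mul 2).exp).const_mul 2).mul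
    (d2.clm_apply (hasFDerivAt_const v p))
  have := ((d1.clm_apply (hasFDerivAt_const v p)).congr_of_eventuallyEq
    (ev.mono fun q hq => (exp_fd hq v).symm)).unique d3
  have := congrArg (fun L : ST →L[ℝ] ℝ => L v) this
  simp only [add_apply, ContinuousLinearMap.comp_apply, ContinuousLinearMap.flip_apply, zero_apply,
    map_zero, zero_add, smul_apply, smul_eq_mul] at this
  rw [this]; ring

/-- an inequality for earlier times passes to the top slice -/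
theorem two_closure (hF : F.Reg) {Z : E × E × ℝ → ℝ} (hZ : ∀ᶠ z in 𝓝 (x, y, t), ContinuousAt Z z)
    (h : ∀ᶠ z : E × E × ℝ in 𝓝 (x, y, t), (z.1, z.2.2) ∈ F.M → (z.2.1, z.2.2) ∈ F.M → z.2.2 < t →
      0 ≤ Z z) :
    ∀ᶠ z : E × E × ℝ in 𝓝 (x, y, t), (z.1, z.2.2) ∈ F.M → (z.2.1, z.2.2) ∈ F.M → z.2.2 ≤ t →
      0 ≤ Z z := by
  filter_upwards [hZ, h.eventually_nhds] with z hc hz h1 h2 h3
  rcases h3.lt_or_eq with h3 | h3
  · exact hz.self_of_nhds h1 h2 h3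
  obtain ⟨γ, e0, ev, e1⟩ := time_curve hF h1
  obtain ⟨η, f0, fv, f1⟩ := time_curve hF h2
  simp only at e0 ev e1 f0 fv f1
  have ht : Tendsto (fun s => (γ s, η s, s)) (𝓝 z.2.2) (𝓝 z) := by
    have : ContinuousAt (fun s => (γ s, η s, s)) z.2.2 :=
      e1.continuousAt.prodMk (f1.continuousAt.prodMk continuousAt_id)
    simpa only [ContinuousAt, e0, f0] using this
  refine ge_of_tendsto ((hc.tendsto.comp ht).mono_left (nhdsWithin_le_nhds (s := Iio z.2.2))) ?_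
  filter_upwards [nhdsWithin_le_nhds (ht.eventually hz), nhdsWithin_le_nhds ev,
    nhdsWithin_le_nhds fv, self_mem_nhdsWithin] with s a b c d
  exact a b c (h3 ▸ d)

theorem twoS_holds : A.TwoS := by
  intro F hF x y t g hx hy hxy hg h h0
  have hd : 0 < dist x y := dist_pos.2 hxy
  have c1 : Continuous fun z : E × E × ℝ => ((z.1, z.2.2) : ST) := by fun_prop
  have c2 : Continuous fun z : E × E × ℝ => (((z.1, z.2.2), z.2.1) : ST × E) := by fun_prop
  have c3 : Continuous fun z : E × E × ℝ => dist z.1 z.2.1 := by fun_prop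
  have hne : ∀ᶠ z : E × E × ℝ in 𝓝 (x, y, t), 0 < dist z.1 z.2.1 :=
    c3.continuousAt.eventually (lt_mem_nhds hd)
  have h1 := two_closure hF.1 (Z := fun z => Real.log (dist z.1 z.2.1) - g (z.1, z.2.2))
    (x := x) (y := y) (t := t) (by
      filter_upwards [hne, (c1.tendsto (x, y, t)).eventually (hg.eventually (by simp))]
        with z a b
      exact (c3.continuousAt.log a.ne').sub (ContinuousAt.comp (f := fun z : E × E × ℝ => ((z.1, z.2.2) : ST)) b.continuousAt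
          c1.continuousAt))
    (((c2.tendsto (x, y, t)).eventually h).mono fun z hz a b c => sub_nonneg.2 (hz a b c))
  have e0 : g (x, t) = Real.log (dist x y) :=
    le_antisymm (sub_nonneg.1 (h1.self_of_nhds hx hy le_rfl)) h0
  have ex : ∀ d : ℝ, 0 < d → Real.exp (2 * Real.log d) = d ^ 2 := fun d hd => by
    rw [two_mul, Real.exp_add, Real.exp_log hd, sq]
  have e1 : Real.exp (2 * g (x, t)) = ‖x - y‖ ^ 2 := by rw [e0, ex _ hd, dist_eq_norm]
  have hm : TwoMin F (fun q => Real.exp (2 * g q)) x y t := by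
    filter_upwards [h1, hne] with z a b k1 k2 k3
    rw [e1, sub_self, sub_nonneg, ← dist_eq_norm, ← ex _ b]
    exact Real.exp_le_exp.2 (by linarith [a k1 k2 k3])
  have hf : ContDiffAt ℝ 2 (fun q => Real.exp (2 * g q)) (x, t) := (contDiffAt_const.mul hg).exp
  have hgd : DifferentiableAt ℝ g (x, t) := hg.differentiableAt (by simp)
  obtain ⟨-, k2, k3⟩ := two_sq hF hx hy hf.contDiffWithinAt hm
  rw [box_amb hF hx hf (EventuallyEq.refl _ _)] at k3
  change (∑ a, F.D a _ * F.D a _) (x, t) = _ at k2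
  simp only [Finset.sum_apply, Pi.mul_apply,
    D_eq hF.1 hx (hf.differentiableAt (by simp)) (EventuallyEq.refl _ _), exp_fd hgd, e1] at k2
  simp only [exp_fd hgd, exp_fd2 hg, e1] at k3
  rw [hb_eq hF hx hg, box_amb hF hx hg (EventuallyEq.refl _ _)]
  have hc : |⟪F.n (x, t), F.n (y, t)⟫_ℝ| ≤ 1 := by
    simpa [hF.1.norm_n hx, hF.1.norm_n hy] using abs_real_inner_le_norm (F.n (x, t)) (F.n (y, t))
  have hD : 0 < ‖x - y‖ ^ 2 := by rw [← e1]; exact Real.exp_pos _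
  rw [← sq_abs ⟪F.n (x, t), F.n (y, t)⟫_ℝ] at k2
  have hc0 := abs_nonneg ⟪F.n (x, t), F.n (y, t)⟫_ℝ
  generalize |⟪F.n (x, t), F.n (y, t)⟫_ℝ| = c at *
  generalize ‖x - y‖ ^ 2 = D at *
  simp only [Fin.sum_univ_three] at k2 k3 ⊢
  generalize fderiv ℝ g (x, t) (F.PL (x, t) (ee 0), 0) = u0 at *
  generalize fderiv ℝ g (x, t) (F.PL (x, t) (ee 1), 0) = u1 at *
  generalize fderiv ℝ g (x, t) (F.PL (x, t) (ee 2), 0) = u2 at *
  have k4 : D * (u0 * u0 + u1 * u1 + u2 * u2) = 1 - c ^ 2 :=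
    mul_left_cancel₀ hD.ne' (by linear_combination k2 / 4)
  refine nonneg_of_mul_nonneg_right ?_ hD
  nlinarith [mul_nonneg hc0 (sub_nonneg.2 hc)]

end Crest.Agent.N250.MP

end
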