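import Crest.Agent.N250.MP.Ret
import Crest.Agent.N250.T.Stm

/-!
# Row 250 (helper60): pointwise and weak maximum principles on a track
-/

set_option autoImplicit false
open MeasureTheory Set Filter Topology
open scoped ContDiff InnerProductSpace
open Crest.GeometryTopology.MCF

noncomputable section

namespace Crest.Agent.N250.MP

variable {F : Mv}

theorem second_nonpos {f f' : ℝ → ℝ} {c : ℝ} (hm : IsLocalMax f 0)
    (h1 : ∀ᶠ θ in 𝓝 (0:ℝ), HasDerivAt f (f' θ) θ) (h2 : HasDerivAt f' c 0) : c ≤ 0 := by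
  have h0 : HasDerivAt f (f' 0) 0 := h1.self_of_nhds
  have e0 : f' 0 = 0 := hm.hasDerivAt_eq_zero h0
  by_contra hc
  push Not at hc
  have hd : deriv f =ᶠ[𝓝 0] f' := h1.mono fun θ h => h.deriv
  have hdd : deriv (deriv f) 0 = c := by rw [hd.deriv_eq, h2.deriv]
  have hM : IsLocalMin f 0 :=
    isLocalMin_of_deriv_deriv_pos (by rw [hdd]; exact hc) (by rw [h0.deriv, e0]) h0.continuousAt
  have hcst : f =ᶠ[𝓝 0] fun _ => f 0 := (hM.and hm).mono fun θ h => le_antisymm h.2 h.1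
  have : deriv f =ᶠ[𝓝 0] fun _ => (0:ℝ) := by
    filter_upwards [hcst.deriv] with θ h
    simpa using h
  rw [this.deriv_eq] at hdd
  simp at hdd
  linarith

section amb
variable {X : Type} [NormedAddCommGroup X] [NormedSpace ℝ X]

theorem line_deriv (p v : X) (s : ℝ) : HasDerivAt (fun s : ℝ => p + s • v) v s := by
  simpa using ((hasDerivAt_id s).smul_const v).const_add p

theorem line_tendsto (p v : X) : Tendsto (fun s : ℝ => p + s • v) (𝓝 0) (𝓝 p) := by
  simpa using (line_deriv p v 0).continuousAt.tendsto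

/-- second order condition along a line -/
theorem amb_max {g : X → ℝ} {p : X} (hg : ContDiffAt ℝ 2 g p) (v : X)
    (hm : IsLocalMax (fun s : ℝ => g (p + s • v)) 0) :
    fderiv ℝ g p v = 0 ∧ fderiv ℝ (fderiv ℝ g) p v v ≤ 0 := by
  have h1 : ∀ᶠ θ in 𝓝 (0:ℝ), HasDerivAt (fun s : ℝ => g (p + s • v))
      (fderiv ℝ g (p + θ • v) v) θ := by
    filter_upwards [(line_tendsto p v).eventually (hg.eventually (by simp))] with θ h
    exact HasFDerivAt.comp_hasDerivAt θ (f := fun s : ℝ => p + s • v)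
      (h.differentiableAt (by simp)).hasFDerivAt (line_deriv p v θ)
  have h3 : DifferentiableAt ℝ (fderiv ℝ g) p :=
    (hg.fderiv_right (m := 1) (by norm_num)).differentiableAt (by simp)
  have h2 : HasDerivAt (fun θ : ℝ => fderiv ℝ g (p + θ • v) v) (fderiv ℝ (fderiv ℝ g) p v v) 0 := by
    have h4 : HasDerivAt (fun θ : ℝ => fderiv ℝ g (p + θ • v)) (fderiv ℝ (fderiv ℝ g) p v) 0 :=
      HasFDerivAt.comp_hasDerivAt 0 (f := fun s : ℝ => p + s • v)
        (by simpa using h3.hasFDerivAt) (line_deriv p v 0)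
    simpa using h4.clm_apply (hasDerivAt_const 0 v)
  refine ⟨?_, second_nonpos hm h1 h2⟩
  simpa using hm.hasDerivAt_eq_zero h1.self_of_nhds

end amb

theorem sum_ee (v : E) : ∑ a, v a • ee a = v := by
  ext b; simp [Finset.sum_apply, Pi.single_apply]

theorem PL_sum (p : ST) (v : Fin 3 → ℝ) :
    F.PL p (∑ a, v a • ee a) = ∑ a, v a • F.PL p (ee a) := by
  simp only [Mv.PL, inner_sum, inner_smul_right, smul_sub, Finset.sum_sub_distrib, Finset.sum_smul,
    mul_smul]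

theorem PL_PL (hF : F.Reg) {p : ST} (hp : p ∈ F.M) (v : E) : F.PL p (F.PL p v) = F.PL p v := by
  conv_lhs => rw [Mv.PL, inner_PL hF hp, zero_smul, sub_zero]

theorem PL_ee (p : ST) (a b : Fin 3) : F.PL p (ee a) b = F.PL p (ee b) a := by
  simp only [Mv.PL, PiLp.sub_apply, PiLp.smul_apply, EuclideanSpace.inner_single_right,
    smul_eq_mul, PiLp.single_apply, eq_comm, conj_trivial]
  ring

theorem P_eq (hF : F.Reg) {p : ST} (hp : p ∈ F.M) (a b : Fin 3) :
    F.P a b p = F.PL p (ee a) b := by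
  let L : ST →L[ℝ] ℝ := (EuclideanSpace.proj b : E →L[ℝ] ℝ).comp (ContinuousLinearMap.fst ℝ E ℝ)
  have := D_eq hF hp (f := F.pre.x b) (g := L) L.differentiableAt (Eventually.of_forall fun _ => rfl) a
  rw [L.fderiv] at this
  exact this

/-- second tangential derivatives through an ambient extension: the ambient Hessian plus a first
order term `dg (Z a b, 0)`, with `Z` independent of the function -/
theorem DD_eq (hF : F.Reg) {p : ST} (hp : p ∈ F.M) : ∃ Z : Fin 3 → Fin 3 → E,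
    ∀ f g : ST → ℝ, ContDiffAt ℝ 2 g p → f =ᶠ[𝓝[F.M] p] g → ∀ a b, F.D a (F.D b f) p =
      fderiv ℝ (fderiv ℝ g) p (F.PL p (ee a), 0) (F.PL p (ee b), 0) + fderiv ℝ g p (Z a b, 0) := by
  obtain ⟨N, hN, hn⟩ := n_ext hF hp
  let Y : Fin 3 → ST → E := fun b q => ee b - ⟪N q, ee b⟫_ℝ • N q
  have hY : ∀ b, DifferentiableAt ℝ (Y b) p := fun b =>
    ((contDiffAt_const.sub ((hN.inner ℝ contDiffAt_const).smul hN)).differentiableAt (by simp) :)
  have hY0 : ∀ b, Y b p = F.PL p (ee b) := fun b => by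
    simp only [Y, Mv.PL, hn.eq_of_nhdsWithin hp]
  refine ⟨fun a b => fderiv ℝ (Y b) p (F.PL p (ee a), 0), fun f g hg h a b => ?_⟩
  have h3 : DifferentiableAt ℝ (fderiv ℝ g) p :=
    (hg.fderiv_right (m := 1) (by norm_num)).differentiableAt (by simp)
  have h4 : HasFDerivAt (fun q : ST => ((Y b q, 0) : ST))
      ((fderiv ℝ (Y b) p).prod 0) p := (hY b).hasFDerivAt.prodMk (hasFDerivAt_const 0 p)
  have h5 := h3.hasFDerivAt.clm_apply h4
  have h6 : F.D b f =ᶠ[𝓝[F.M] p] fun q => fderiv ℝ g q (Y b q, 0) := by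
    filter_upwards [nhdsWithin_le_nhds (hg.eventually (by simp)), self_mem_nhdsWithin,
      eventually_eventually_nhdsWithin.2 h, hn] with q q1 q2 q3 q4
    rw [D_eq hF q2 (q1.differentiableAt (by simp)) q3]
    simp only [Y, Mv.PL, q4]
  rw [D_eq hF hp h5.differentiableAt h6, h5.fderiv]
  simp [hY0, add_comm]

theorem max_slice (hF : F.Reg) {p : ST} (hp : p ∈ F.M) {f : ST → ℝ}
    (hf : ContDiffWithinAt ℝ 2 f F.M p) (hm : IsLocalMaxOn f (F.M ∩ {q | q.2 = p.2}) p) :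
    (∀ a, F.D a f p = 0) ∧ ∃ B : ST →L[ℝ] ST →L[ℝ] ℝ, (∀ v : E, B (v, 0) (v, 0) ≤ 0) ∧
      ∀ a b, F.D a (F.D b f) p = B (F.PL p (ee a), 0) (F.PL p (ee b), 0) := by
  obtain ⟨π, hπ⟩ := exists_ret hF hp
  have hg : ContDiffAt ℝ 2 (f ∘ π) p := hπ.comp_sm (m := 2) hf
  have key : ∀ v : E, IsLocalMax (fun s : ℝ => (f ∘ π) (p + s • ((v, 0) : ST))) 0 := fun v => by
    have t : Tendsto (fun s : ℝ => π (p + s • ((v, 0) : ST))) (𝓝 0)
        (𝓝[F.M ∩ {q | q.2 = p.2}] p) := by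
      refine tendsto_nhdsWithin_iff.2
        ⟨(hπ.tendsto.mono_right nhdsWithin_le_nhds).comp (line_tendsto p _), ?_⟩
      filter_upwards [(line_tendsto p ((v, 0) : ST)).eventually hπ.ev] with s hs
      exact ⟨hs.1, hs.2.1.trans (by simp)⟩
    filter_upwards [t.eventually hm] with s hs
    simpa [hπ.fix] using hs
  have k1 := fun v : E => (amb_max hg _ (key v)).1
  obtain ⟨Z, hZ⟩ := DD_eq hF hp
  refine ⟨fun a => ?_, fderiv ℝ (fderiv ℝ (f ∘ π)) p, fun v => (amb_max hg _ (key v)).2,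
    fun a b => ?_⟩
  · rw [D_eq hF hp (hg.differentiableAt (by simp)) (hπ.comp_eq f), k1]
  · rw [hZ f _ hg (hπ.comp_eq f), k1, add_zero]

theorem max_lap (hF : F.Reg) {p : ST} (hp : p ∈ F.M) {f : ST → ℝ}
    (hf : ContDiffWithinAt ℝ 2 f F.M p) (hm : IsLocalMaxOn f (F.M ∩ {q | q.2 = p.2}) p) :
    F.lap f p ≤ 0 := by
  obtain ⟨-, B, h1, h2⟩ := max_slice hF hp hf hm
  simp only [N222.Pre.lap, Finset.sum_apply]
  exact Finset.sum_nonpos fun a _ => (h2 a a).trans_le (h1 _)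

theorem max_hess (hF : F.Reg) {p : ST} (hp : p ∈ F.M) {f : ST → ℝ}
    (hf : ContDiffWithinAt ℝ 2 f F.M p) (hm : IsLocalMaxOn f (F.M ∩ {q | q.2 = p.2}) p)
    (v : Fin 3 → ℝ) : ∑ a, ∑ b, F.pre.hess f a b p * (v a * v b) ≤ 0 := by
  obtain ⟨-, B, h1, h2⟩ := max_slice hF hp hf hm
  have pr : ∀ (u : Fin 3 → ℝ) (w : Fin 3 → E),
      ((∑ a, u a • w a, 0) : ST) = ∑ a, u a • ((w a, 0) : ST) := fun u w => by
    ext1 <;> simp [Prod.fst_sum, Prod.snd_sum]
  have e1 : ∀ a b, F.pre.hess f a b p = B (F.PL p (ee a), 0) (F.PL p (ee b), 0) := fun a b => by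
    simp only [N222.Pre.hess, Finset.sum_apply, Pi.mul_apply]
    conv_rhs => rw [← PL_PL hF hp (ee b), ← sum_ee (F.PL p (ee b)), PL_sum, pr, map_sum]
    refine Finset.sum_congr rfl fun c _ => ?_
    rw [map_smul, ← h2, ← P_eq hF hp, smul_eq_mul]
  have := h1 (∑ a, v a • F.PL p (ee a))
  rw [pr] at this
  simp only [map_sum, map_smul, _root_.sum_apply, _root_.smul_apply,
    smul_eq_mul, Finset.mul_sum] at this
  rw [Finset.sum_comm] at this
  refine le_of_eq_of_le ?_ this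
  refine Finset.sum_congr rfl fun a _ => Finset.sum_congr rfl fun b _ => ?_
  rw [e1]; ring

theorem max_Dt (hF : F.Reg) {p : ST} (hp : p ∈ F.M) {f : ST → ℝ}
    (hf : ContDiffWithinAt ℝ 1 f F.M p) (hm : IsLocalMaxOn f (F.M ∩ {q | q.2 ≤ p.2}) p) :
    0 ≤ F.Dt f p := by
  obtain ⟨π, hπ⟩ := exists_ret hF hp
  have hg : DifferentiableAt ℝ (f ∘ π) p := (hπ.comp_sm (m := 1) hf).differentiableAt (by simp)
  rw [Dt_eq hF hp hg (hπ.comp_eq f)]
  set w : ST := (F.V p • F.n p, 1) with hw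
  have t : Tendsto (fun s : ℝ => π (p + s • w)) (𝓝[Iic 0] 0) (𝓝[F.M ∩ {q | q.2 ≤ p.2}] p) := by
    refine tendsto_nhdsWithin_iff.2
      ⟨((hπ.tendsto.mono_right nhdsWithin_le_nhds).comp (line_tendsto p _)).mono_left
        nhdsWithin_le_nhds, ?_⟩
    filter_upwards [nhdsWithin_le_nhds ((line_tendsto p w).eventually hπ.ev),
      self_mem_nhdsWithin] with s hs hs0
    exact ⟨hs.1, hs.2.1.trans_le (by simpa [hw] using hs0)⟩
  have hmx : IsLocalMaxOn (fun s : ℝ => (f ∘ π) (p + s • w)) (Iic 0) 0 := by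
    filter_upwards [t.eventually hm] with s hs
    simpa [hπ.fix] using hs
  have hd : HasDerivAt (fun s : ℝ => (f ∘ π) (p + s • w)) (fderiv ℝ (f ∘ π) p w) 0 :=
    HasFDerivAt.comp_hasDerivAt 0 (f := fun s : ℝ => p + s • w)
      (by simpa using hg.hasFDerivAt) (line_deriv p w 0)
  have := hmx.hasFDerivWithinAt_nonpos hd.hasFDerivAt.hasFDerivWithinAt (y := -1)
    (mem_posTangentConeAt_of_segment_subset (by
      rw [segment_symm, segment_eq_Icc (by norm_num)]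
      exact Icc_subset_Iic_self))
  simpa using this

/-- parabolic maximum point: `box f ≥ 0` -/
theorem max_box (hF : F.Reg) {p : ST} (hp : p ∈ F.M) {f : ST → ℝ}
    (hf : ContDiffWithinAt ℝ 2 f F.M p) (hm : IsLocalMaxOn f (F.M ∩ {q | q.2 ≤ p.2}) p) :
    0 ≤ F.box f p := by
  have h1 := max_Dt hF hp (hf.of_le (by norm_num)) hm
  have h2 := max_lap hF hp hf (hm.on_subset (inter_subset_inter_right _ fun q hq => le_of_eq hq))
  simp only [Mv.box, Pi.sub_apply]
  linarith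

theorem maxS_holds : MaxS := fun _ hF _ hf p hp =>
  ⟨fun hm => ⟨(max_slice hF hp ((hf p hp).of_le (by norm_cast)) hm).1,
    max_hess hF hp ((hf p hp).of_le (by norm_cast)) hm,
    max_lap hF hp ((hf p hp).of_le (by norm_cast)) hm⟩,
   fun hm => max_Dt hF hp ((hf p hp).of_le (by norm_cast)) hm⟩

theorem Dt_exp (hF : F.Reg) {p : ST} (hp : p ∈ F.M) {f : ST → ℝ}
    (hf : ContDiffWithinAt ℝ 1 f F.M p) (c : ℝ) :
    F.Dt (fun q => Real.exp (c * q.2) * f q) p = Real.exp (c * p.2) * (F.Dt f p + c * f p) := by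
  obtain ⟨g, hg, he⟩ := exists_ext hF hp (m := 1) hf
  have hd := hg.differentiableAt (by simp)
  have h1 : HasFDerivAt (fun q : ST => Real.exp (c * q.2))
      (Real.exp (c * p.2) • (c • ContinuousLinearMap.snd ℝ E ℝ)) p :=
    (hasFDerivAt_snd.const_mul c).exp
  have h2 := h1.mul hd.hasFDerivAt
  rw [Dt_eq hF hp h2.differentiableAt (he.mono fun q hq => by simp [hq]), h2.fderiv,
    Dt_eq hF hp hd he, he.eq_of_nhdsWithin hp]
  simp
  ring

theorem wmaxS_holds : WMaxS := by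
  intro F hF f t₁ t₂ c hf hK h0 hc p₀ hp₀ ht₀
  by_contra hpos
  push Not at hpos
  set k := -(c + 1) with hk
  let g : ST → ℝ := fun q => Real.exp (k * q.2) * f q
  have hg : F.Sm g := ((contDiff_const.mul contDiff_snd).exp.contDiffOn).mul hf
  set ε := g p₀ * Real.exp (-(|k| * (|t₁| + |t₂|))) with hε
  have hm : 0 < g p₀ := mul_pos (Real.exp_pos _) hpos
  have hε0 : 0 < ε := mul_pos hm (Real.exp_pos _)
  have hb : ∀ t ∈ Icc t₁ t₂, Real.exp (k * t) * ε ≤ g p₀ := fun t ht => by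
    rw [hε, mul_left_comm, ← Real.exp_add]
    refine mul_le_of_le_one_right hm.le (Real.exp_le_one_iff.2 ?_)
    have h1 : |t| ≤ |t₁| + |t₂| := abs_le.2
      ⟨by linarith [neg_abs_le t₁, abs_nonneg t₂, ht.1], by linarith [le_abs_self t₂, abs_nonneg t₁, ht.2]⟩
    have h2 : k * t ≤ |k| * |t| := abs_mul k t ▸ le_abs_self _
    nlinarith [abs_nonneg k]
  have hp₀K : p₀ ∈ {p | p ∈ F.M ∧ p.2 ∈ Icc t₁ t₂ ∧ ε ≤ f p} :=
    ⟨hp₀, ht₀, le_of_mul_le_mul_left (hb _ ht₀) (Real.exp_pos _)⟩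
  obtain ⟨p, ⟨hp, ht, hfp⟩, hmax⟩ := (hK ε hε0).exists_isMaxOn ⟨p₀, hp₀K⟩
    (hg.continuousOn.mono fun q hq => hq.1)
  have hall : ∀ q ∈ F.M, q.2 ∈ Icc t₁ t₂ → g q ≤ g p := fun q hq hqt => by
    by_cases h : ε ≤ f q
    · exact hmax ⟨hq, hqt, h⟩
    · exact ((mul_le_mul_of_nonneg_left (not_le.1 h).le (Real.exp_pos _).le).trans
        (hb _ hqt)).trans (hmax hp₀K)
  have hfp0 : 0 < f p := hε0.trans_le hfp
  have ht1 : t₁ < p.2 := lt_of_le_of_ne ht.1 fun h => absurd (h0 p hp h.symm) (not_le.2 hfp0)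
  have hloc : IsLocalMaxOn g (F.M ∩ {q | q.2 ≤ p.2}) p := by
    filter_upwards [nhdsWithin_le_nhds ((isOpen_lt continuous_const continuous_snd).mem_nhds ht1),
      self_mem_nhdsWithin] with q h1 h2
    exact hall q h2.1 ⟨le_of_lt h1, le_trans h2.2 ht.2⟩
  have hsl : IsLocalMaxOn f (F.M ∩ {q | q.2 = p.2}) p := by
    filter_upwards [self_mem_nhdsWithin] with q h2
    have h3 : q.2 = p.2 := h2.2
    have := hall q h2.1 (h3 ▸ ht)
    simp only [g, h3] at this
    exact le_of_mul_le_mul_left this (Real.exp_pos _)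
  have a1 := hc p hp ⟨ht1, ht.2⟩ hfp0 (max_slice hF hp ((hf p hp).of_le (by norm_cast)) hsl).1
    (max_lap hF hp ((hf p hp).of_le (by norm_cast)) hsl)
  have a2 := max_Dt hF hp ((hg p hp).of_le (by norm_cast)) hloc
  rw [Dt_exp hF hp ((hf p hp).of_le (by norm_cast))] at a2
  have a3 := nonneg_of_mul_nonneg_right a2 (Real.exp_pos _) 
  nlinarith

end Crest.Agent.N250.MP

end
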