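import Crest.Agent.N250.T.Stm
import Crest.Agent.N250.Re.Basic
import Crest.Agent.N250.Tr.Base

/-!
# Row 250 (helper71): the graph chart of a track, `chartS_holds`
-/

set_option autoImplicit false
open MeasureTheory Set Filter Topology Function
open scoped ContDiff InnerProductSpace
open Crest.GeometryTopology.MCF

noncomputable section

namespace Crest.Agent.N250.MP

/-- the second fundamental form as a bilinear form on `E` -/
def Aq (F : Mv) (p : ST) (v w : E) : ℝ := ∑ a, ∑ b, F.A a b p * (v a * w b)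

variable {F : Mv} {p : ST}

/-- the derivative of a map into the track is tangent -/
theorem tg_of_map {X : Type} [NormedAddCommGroup X] [NormedSpace ℝ X] (hF : F.Reg) {Ψ : X → ST}
    {L : X →L[ℝ] ST} {z : X} (hd : HasFDerivAt Ψ L z) (hm : ∀ᶠ y in 𝓝 z, Ψ y ∈ F.M) (w : X) :
    F.Tg (Ψ z) (L w) := by
  have hz := hm.self_of_nhds
  obtain ⟨W, φ, h1, h2⟩ := hF _ hz
  rw [h2.tg_iff h1 hz]
  have d1 := (h2.diffAt h1).hasFDerivAt.comp z hd
  have e : (φ ∘ Ψ) =ᶠ[𝓝 z] fun _ => 0 := by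
    filter_upwards [hm, hd.continuousAt.preimage_mem_nhds (h2.isOpen.mem_nhds h1)] with y hy hy'
    exact (h2.mem _ hy').1 hy
  have d2 := (d1.congr_of_eventuallyEq e.symm).unique (hasFDerivAt_const (0 : ℝ) z)
  exact congrArg (fun L : X →L[ℝ] ℝ => L w) d2

/-- chain rule along a map into the track -/
theorem hasFDerivAt_map {X G : Type} [NormedAddCommGroup X] [NormedSpace ℝ X]
    [NormedAddCommGroup G] [NormedSpace ℝ G] {f : ST → G} {Ψ : X → ST}
    {L : X →L[ℝ] ST} {z : X} (hf : DifferentiableWithinAt ℝ f F.M (Ψ z))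
    (hd : HasFDerivAt Ψ L z) (hm : ∀ᶠ y in 𝓝 z, Ψ y ∈ F.M) :
    HasFDerivAt (fun y => f (Ψ y)) ((F.td f (Ψ z)).comp L) z :=
  hf.hasFDerivWithinAt.comp_hasFDerivAt z hd hm

theorem diff_n (hF : F.Reg) (hp : p ∈ F.M) : DifferentiableWithinAt ℝ F.n F.M p :=
  (hF.sm_n p hp).differentiableWithinAt (by simp)

theorem td_n (hF : F.Reg) (hp : p ∈ F.M) (v w : E) :
    ⟪F.td F.n p (F.PL p v, 0), w⟫_ℝ = Aq F p v w := by
  rw [inner_eq_sum, Aq, Finset.sum_comm]
  refine Finset.sum_congr rfl fun b _ => ?_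
  have h1 : HasFDerivWithinAt (F.nu b) ((EuclideanSpace.proj (𝕜 := ℝ) b).comp (F.td F.n p)) F.M p :=
    (EuclideanSpace.proj (𝕜 := ℝ) b).hasFDerivAt.comp_hasFDerivWithinAt p
      (diff_n hF hp).hasFDerivWithinAt
  have h2 := hF.td_eq hp h1 (hF.tg_PL hp v)
  have h3 : F.td F.n p (F.PL p v, 0) b = F.td (F.nu b) p (F.PL p v, 0) := h2.symm
  rw [h3, Tr.td_PL, Finset.sum_mul]
  refine Finset.sum_congr rfl fun a _ => ?_
  simp only [Mv.A]; ring

theorem td_n_n (hF : F.Reg) (hp : p ∈ F.M) {w : ST} (hw : F.Tg p w) :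
    ⟪F.td F.n p w, F.n p⟫_ℝ = 0 := by
  have d := (diff_n hF hp).hasFDerivWithinAt
  have d1 := d.inner ℝ d
  have d2 : HasFDerivWithinAt (fun q => ⟪F.n q, F.n q⟫_ℝ) (0 : ST →L[ℝ] ℝ) F.M p :=
    (hasFDerivWithinAt_const (1 : ℝ) p F.M).congr (fun q hq => hF.inner_n hq) (hF.inner_n hp)
  have := hF.unique_tg hp d1 d2 hw
  simp only [ContinuousLinearMap.comp_apply, ContinuousLinearMap.prod_apply,
    fderivInnerCLM_apply, zero_apply] at this
  rw [real_inner_comm (fderivWithin ℝ F.n F.M p w)] at this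
  change ⟪fderivWithin ℝ F.n F.M p w, F.n p⟫_ℝ = 0
  linarith

theorem Aq_n (hF : F.Reg) (hp : p ∈ F.M) (v : E) : Aq F p v (F.n p) = 0 := by
  rw [← td_n hF hp, td_n_n hF hp (hF.tg_PL hp v)]

theorem Aq_PL (hF : F.Reg) (hp : p ∈ F.M) (v w : E) : Aq F p v (F.PL p w) = Aq F p v w := by
  rw [← td_n hF hp, ← td_n hF hp, show F.PL p w = w - ⟪F.n p, w⟫_ℝ • F.n p from rfl,
    inner_sub_right, inner_smul_right, td_n_n hF hp (hF.tg_PL hp v), mul_zero, sub_zero]

theorem chartS_holds : ChartS := by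
  intro F hF p hp
  obtain ⟨W, φ, hW, h⟩ := hF p hp
  obtain ⟨G, h1, h2, h3, h4⟩ := h.exists_flat hW hp
  have hν := hF.inner_n hp
  set ν := F.n p with hνd
  set κ : ST → ST := fun q => killL ν (p.1 + q.1, q.2) with hκ
  have hκs : ContDiff ℝ ∞ κ :=
    (killL ν).contDiff.comp ((contDiff_const.add contDiff_fst).prodMk contDiff_snd)
  set U := κ ⁻¹' G.target with hU
  have hUo : IsOpen U := G.open_target.preimage hκs.continuous
  have hκ0 : κ (0, p.2) = G p := by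
    rw [h3, flat, (h.mem p hW).1 hp, hκ]
    simp only [killL_apply, add_zero, neg_smul, sub_eq_add_neg, zero_add]
  have h0 : ((0 : E), p.2) ∈ U := by rw [hU, mem_preimage, hκ0]; exact G.map_source h1
  set Θ : ST → ST := fun q => G.symm (κ q) with hΘ
  have hΘs : ContDiffOn ℝ ∞ Θ U := h4.comp hκs.contDiffOn fun q hq => hq
  have key : ∀ q ∈ U, flat φ ν (Θ q) = κ q := fun q hq => by rw [← h3]; exact G.right_inv hq
  have ht : ∀ q ∈ U, (Θ q).2 = q.2 := fun q hq => (congrArg Prod.snd (key q hq) :)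
  have hφ : ∀ q ∈ U, φ (Θ q) = 0 := fun q hq => by
    rw [← inner_flat φ hν, key q hq, hκ]
    simp only [killL_apply, inner_sub_right, inner_smul_right, hν]; ring
  have hM : ∀ q ∈ U, Θ q ∈ F.M := fun q hq => (h.mem _ (h2 (G.map_target hq))).2 (hφ q hq)
  have hΘ0 : Θ (0, p.2) = p := by rw [hΘ]; simp only; rw [hκ0, G.left_inv h1]
  set Ψ : ST → E := fun q => (Θ q).1 with hΨ
  have hΨs : ContDiffOn ℝ ∞ Ψ U := hΘs.fst
  have hP : ∀ q ∈ U, Ψ q - ⟪ν, Ψ q⟫_ℝ • ν = p.1 + q.1 - ⟪ν, p.1 + q.1⟫_ℝ • ν := fun q hq => by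
    have := congrArg Prod.fst (key q hq)
    simp only [flat, hφ q hq, hκ, killL_apply, zero_sub, neg_smul, ← sub_eq_add_neg] at this
    exact this
  have hd : ∀ q ∈ U, HasFDerivAt Ψ (fderiv ℝ Ψ q) q := fun q hq =>
    ((hΨs.contDiffAt (hUo.mem_nhds hq)).differentiableAt (by simp)).hasFDerivAt
  have hd' : ∀ q ∈ U, HasFDerivAt Θ ((fderiv ℝ Ψ q).prod (ContinuousLinearMap.snd ℝ E ℝ)) q :=
    fun q hq => ((hd q hq).prodMk hasFDerivAt_snd).congr_of_eventuallyEq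
      (eventually_of_mem (hUo.mem_nhds hq) fun r hr => Prod.ext rfl (ht r hr))
  have hT : ∀ q ∈ U, ∀ w : ST, ⟪F.n (Θ q), fderiv ℝ Ψ q w⟫_ℝ = F.V (Θ q) * w.2 := fun q hq w =>
    tg_of_map hF (hd' q hq) (eventually_of_mem (hUo.mem_nhds hq) hM) w
  have hD : ∀ q ∈ U, ∀ w : ST, fderiv ℝ Ψ q w - ⟪ν, fderiv ℝ Ψ q w⟫_ℝ • ν = F.PL p w.1 :=
    fun q hq w => by
    have d1 := (hd q hq).sub (((innerSL ℝ ν).hasFDerivAt.comp q (hd q hq)).smul_const ν)
    have d0 : HasFDerivAt (fun q : ST => p.1 + q.1) (ContinuousLinearMap.fst ℝ E ℝ) q :=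
      hasFDerivAt_fst.const_add _
    have d2 := d0.sub (((innerSL ℝ ν).hasFDerivAt.comp q d0).smul_const ν)
    have d3 := (d1.congr_of_eventuallyEq (eventually_of_mem (hUo.mem_nhds hq)
      fun r hr => (hP r hr).symm)).unique d2
    exact congrArg (fun L : ST →L[ℝ] E => L w) d3
  have hD0 : ∀ v c, fderiv ℝ Ψ (0, p.2) (v, c) = F.PL p v + (c * F.V p) • F.n p := fun v c => by
    have e1 := hD _ h0 (v, c)
    have e2 := hT _ h0 (v, c)
    rw [hΘ0] at e2
    rw [← hνd] at e2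
    rw [e2] at e1
    rw [← e1, mul_comm c]; abel
  refine ⟨Ψ, U, hUo, h0, hΨs, congrArg Prod.fst hΘ0, fun q hq => ?_, hD0, fun v w => ?_⟩
  · have := hM q hq
    rwa [← ht q hq]
  · set Y : ST → E := fun q => fderiv ℝ Ψ q (w, 0) with hY
    have hYd : HasFDerivAt Y (fderiv ℝ Y (0, p.2)) (0, p.2) :=
      ((((hΨs.contDiffAt (hUo.mem_nhds h0)).fderiv_right (m := ∞) (by simp)).clm_apply
        contDiffAt_const).differentiableAt (by simp)).hasFDerivAt
    have d1 := hYd.sub (((innerSL ℝ ν).hasFDerivAt.comp _ hYd).smul_const ν)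
    have d2 := (d1.congr_of_eventuallyEq (eventually_of_mem (hUo.mem_nhds h0)
      fun r hr => (hD r hr (w, 0)).symm)).unique (hasFDerivAt_const (F.PL p w) _)
    have e1 : fderiv ℝ Y (0, p.2) (v, 0) - ⟪ν, fderiv ℝ Y (0, p.2) (v, 0)⟫_ℝ • ν = 0 :=
      congrArg (fun L : ST →L[ℝ] E => L (v, 0)) d2
    have d3 := hasFDerivAt_map (f := F.n) (by rw [hΘ0]; exact diff_n hF hp) (hd' _ h0)
      (eventually_of_mem (hUo.mem_nhds h0) hM)
    have d4 := ((d3.inner ℝ hYd).congr_of_eventuallyEq (f₁ := fun _ => (0 : ℝ))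
      (eventually_of_mem (hUo.mem_nhds h0)
      fun r hr => by simpa using (hT r hr (w, 0)).symm)).unique (hasFDerivAt_const (0 : ℝ) _)
    have e2 := congrArg (fun L : ST →L[ℝ] ℝ => L (v, 0)) d4
    simp only [ContinuousLinearMap.comp_apply, ContinuousLinearMap.prod_apply,
      fderivInnerCLM_apply, zero_apply, hΘ0, hD0, hY, zero_mul, zero_smul,
      add_zero, ContinuousLinearMap.coe_snd'] at e2
    rw [td_n hF hp, Aq_PL hF hp] at e2
    have e3 : ⟪ν, fderiv ℝ Y (0, p.2) (v, 0)⟫_ℝ = -Aq F p v w := by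
      rw [hνd, hY]; linarith
    rw [e3, sub_eq_zero] at e1
    exact e1

end Crest.Agent.N250.MP

end
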