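import Crest.Agent.N250.Defs

/-!
# Row 250 (helper60): local retraction onto the track, derivatives through ambient extensions
-/

set_option autoImplicit false
open MeasureTheory Set Filter Topology
open scoped ContDiff InnerProductSpace
open Crest.GeometryTopology.MCF

noncomputable section

namespace Crest.Agent.N250.MP

theorem fd_apply {φ : ST → ℝ} {q : ST} (h : DifferentiableAt ℝ φ q) (v : ST) :
    fderiv ℝ φ q v = ⟪gradX φ q.1 q.2, v.1⟫_ℝ + v.2 * dT φ q := by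
  have h1 : HasFDerivAt (fun y : E => φ (y, q.2))
      ((fderiv ℝ φ q).comp (ContinuousLinearMap.inl ℝ E ℝ)) q.1 :=
    HasFDerivAt.comp q.1 (f := fun y : E => (y, q.2)) h.hasFDerivAt (hasFDerivAt_prodMk_left q.1 q.2)
  have h2 : HasDerivAt (fun s : ℝ => φ (q.1, s)) (fderiv ℝ φ q (0, 1)) q.2 :=
    HasFDerivAt.comp_hasDerivAt q.2 (f := fun s : ℝ => (q.1, s)) h.hasFDerivAt
      ((hasDerivAt_const q.2 q.1).prodMk (hasDerivAt_id q.2))
  have e : v = (v.1, 0) + v.2 • ((0, 1) : ST) := by ext <;> simp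
  rw [gradX, inner_gradient_left, h1.fderiv, dT, h2.deriv]
  conv_lhs => rw [e, map_add, map_smul]
  simp

theorem gradX_sm {φ : ST → ℝ} {p : ST} (h : ContDiffAt ℝ ∞ φ p) :
    ContDiffAt ℝ ∞ (fun q : ST => gradX φ q.1 q.2) p := by
  have h1 : ContDiffAt ℝ ∞ (fderiv ℝ φ) p := h.fderiv_right (by simp)
  have h2 : ContDiffAt ℝ ∞ (fun q : ST => (InnerProductSpace.toDual ℝ E).symm
      ((fderiv ℝ φ q).comp (ContinuousLinearMap.inl ℝ E ℝ))) p :=
    ((InnerProductSpace.toDual ℝ E).symm.contDiff.contDiffAt).comp p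
      (h1.clm_comp contDiffAt_const)
  refine h2.congr_of_eventuallyEq ?_
  filter_upwards [(h.of_le (m := 1) (by simp)).eventually (by simp)] with q hq
  have hd := hq.differentiableAt (by simp)
  have h1 : HasFDerivAt (fun y : E => φ (y, q.2))
      ((fderiv ℝ φ q).comp (ContinuousLinearMap.inl ℝ E ℝ)) q.1 :=
    HasFDerivAt.comp q.1 (f := fun y : E => (y, q.2)) hd.hasFDerivAt (hasFDerivAt_prodMk_left q.1 q.2)
  rw [gradX, gradient, h1.fderiv]

variable {F : Mv}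

/-- tangent vectors of the track -/
def Tn (F : Mv) (p v : ST) : Prop := ⟪F.n p, v.1⟫_ℝ = F.V p * v.2

theorem norm_n (hF : F.Reg) {p : ST} (hp : p ∈ F.M) : ‖F.n p‖ = 1 := by
  obtain ⟨W, φ, hW, hL⟩ := hF p hp
  rw [hL.n_eq p hW hp, norm_smul, norm_inv, norm_norm,
    inv_mul_cancel₀ (norm_ne_zero_iff.2 (hL.ne p hW))]

theorem inner_nn (hF : F.Reg) {p : ST} (hp : p ∈ F.M) : ⟪F.n p, F.n p⟫_ℝ = 1 := by
  rw [real_inner_self_eq_norm_sq, norm_n hF hp]; norm_num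

theorem inner_PL (hF : F.Reg) {p : ST} (hp : p ∈ F.M) (v : E) : ⟪F.n p, F.PL p v⟫_ℝ = 0 := by
  rw [Mv.PL, inner_sub_right, inner_smul_right, inner_nn hF hp]; ring

theorem tn_PL (hF : F.Reg) {p : ST} (hp : p ∈ F.M) (v : E) : Tn F p (F.PL p v, 0) := by
  simp [Tn, inner_PL hF hp]

theorem tn_T (hF : F.Reg) {p : ST} (hp : p ∈ F.M) : Tn F p (F.V p • F.n p, 1) := by
  simp only [Tn, inner_smul_right, inner_nn hF hp]

theorem loc_fd {W : Set ST} {φ : ST → ℝ} (hL : F.Loc W φ) {q : ST} (hW : q ∈ W) (hq : q ∈ F.M)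
    (v : ST) : fderiv ℝ φ q v = ‖gradX φ q.1 q.2‖ * (⟪F.n q, v.1⟫_ℝ - F.V q * v.2) := by
  have hne := norm_ne_zero_iff.2 (hL.ne q hW)
  rw [fd_apply ((hL.sm.contDiffAt (hL.isOpen.mem_nhds hW)).differentiableAt (by simp)),
    hL.n_eq q hW hq, hL.V_eq q hW hq, inner_smul_left]
  simp only [conj_trivial]
  field_simp
  ring

/-- a local time preserving retraction onto the track -/
structure Ret (F : Mv) (p : ST) (π : ST → ST) : Prop where
  sm : ContDiffAt ℝ ∞ π p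
  ev : ∀ᶠ q in 𝓝 p, π q ∈ F.M ∧ (π q).2 = q.2 ∧ (q ∈ F.M → π q = q)
  fix : π p = p
  tan : ∀ v, Tn F p v → fderiv ℝ π p v = v

theorem exists_ret (hF : F.Reg) {p : ST} (hp : p ∈ F.M) : ∃ π, Ret F p π := by
  obtain ⟨W, φ, hW, hL⟩ := hF p hp
  have hn := norm_n hF hp
  set n := F.n p with hnd
  have hφ : ContDiffAt ℝ ∞ φ p := hL.sm.contDiffAt (hL.isOpen.mem_nhds hW)
  let N : ℝ →L[ℝ] ST := ContinuousLinearMap.toSpanSingleton ℝ ((n, 0) : ST)
  let l : ST →L[ℝ] ℝ := (innerSL ℝ n).comp (ContinuousLinearMap.fst ℝ E ℝ)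
  let Q : ST →L[ℝ] ST := ContinuousLinearMap.id ℝ ST - N.comp l
  have hQ : ∀ q : ST, Q q = (q.1 - ⟪n, q.1⟫_ℝ • n, q.2) := fun q => by
    ext <;> simp [Q, N, l]
  have hN : ∀ r : ℝ, N r = (r • n, 0) := fun r => by ext <;> simp [N]
  have hQN : ∀ r, Q (N r) = 0 := fun r => by
    rw [hN, hQ]; simp [inner_smul_right, hn]
  have hQQ : ∀ q, Q (Q q) = Q q := fun q => by
    rw [hQ (Q q), hQ q]; simp [inner_sub_right, inner_smul_right, hn]
  have hlQ : ∀ q, l (Q q) = 0 := fun q => by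
    rw [hQ]; simp [l, inner_sub_right, inner_smul_right, hn]
  have hlN : ∀ r, l (N r) = r := fun r => by
    rw [hN]; simp [l, hn]
  let G : ST → ST := fun q => Q q + N (φ q)
  have hG : ContDiffAt ℝ ∞ G p := Q.contDiff.contDiffAt.add (N.contDiff.contDiffAt.comp p hφ)
  let D : ST →L[ℝ] ST := Q + N.comp (fderiv ℝ φ p)
  have hD : HasFDerivAt G D p :=
    Q.hasFDerivAt.add (N.hasFDerivAt.comp p (hφ.differentiableAt (by simp)).hasFDerivAt)
  have hg := norm_ne_zero_iff.2 (hL.ne p hW)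
  have hinj : ∀ v, D v = 0 → v = 0 := fun v hv => by
    have h1 : fderiv ℝ φ p v = 0 := by
      have := congrArg l hv
      simpa [D, hlQ, hlN] using this
    have h2 : Q v = 0 := by simpa [D, h1] using hv
    rw [hQ] at h2
    have h3 : v.2 = 0 := (Prod.ext_iff.1 h2).2
    have h4 : v.1 = ⟪n, v.1⟫_ℝ • n := sub_eq_zero.1 (Prod.ext_iff.1 h2).1
    rw [loc_fd hL hW hp, h3, mul_zero, sub_zero, mul_eq_zero] at h1
    rw [h1.resolve_left hg, zero_smul] at h4
    exact Prod.ext h4 h3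
  have hinj' : Function.Injective D := (injective_iff_map_eq_zero D).2 hinj
  let D' : ST ≃L[ℝ] ST := (LinearEquiv.ofInjectiveEndo (D : ST →ₗ[ℝ] ST) hinj').toContinuousLinearEquiv
  have hD' : HasFDerivAt G (D' : ST →L[ℝ] ST) p := by
    convert hD using 1
    rfl
  let e := hG.toOpenPartialHomeomorph G hD' (by simp)
  have hs : p ∈ e.source := hG.mem_toOpenPartialHomeomorph_source hD' (by simp)
  have he : ∀ q, e q = G q := fun q => rfl
  have h0 : φ p = 0 := (hL.mem p hW).1 hp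
  have hQG : Q (G p) = e p := by simp [he, G, h0, hQQ]
  have hsy : ContDiffAt ℝ ∞ e.symm (e p) :=
    e.contDiffAt_symm (e.map_source hs) (by rw [e.left_inv hs]; exact hD') (by
      rw [e.left_inv hs]; exact hG)
  have hQGs : ContDiffAt ℝ ∞ (fun q => Q (G q)) p := Q.contDiff.contDiffAt.comp p hG
  have hπ : ContDiffAt ℝ ∞ (fun q => e.symm (Q (G q))) p :=
    ContDiffAt.comp p (g := e.symm) (by rw [hQG]; exact hsy) hQGs
  have hfix : e.symm (Q (G p)) = p := by rw [hQG, e.left_inv hs]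
  have t1 : ∀ᶠ q in 𝓝 p, Q (G q) ∈ e.target :=
    hQGs.continuousAt.preimage_mem_nhds (by
      rw [hQG]; exact e.open_target.mem_nhds (e.map_source hs))
  have t2 : ∀ᶠ q in 𝓝 p, e.symm (Q (G q)) ∈ W :=
    hπ.continuousAt.preimage_mem_nhds (by rw [hfix]; exact hL.isOpen.mem_nhds hW)
  have t3 : ∀ᶠ q in 𝓝 p, G (e.symm (Q (G q))) = Q (G q) := t1.mono fun q h => e.right_inv h
  refine ⟨fun q => e.symm (Q (G q)), hπ, ?_, hfix, fun v hv => ?_⟩
  · filter_upwards [t2, t3, e.open_source.mem_nhds hs, hL.isOpen.mem_nhds hW] with q h2 h3 h4 h5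
    refine ⟨(hL.mem _ h2).2 ?_, ?_, fun hq => ?_⟩
    · have := congrArg l h3
      simpa [G, hlQ, hlN] using this
    · have := congrArg Prod.snd h3
      simpa [G, hQ, hN] using this
    · have : Q (G q) = e q := by simp [he, G, (hL.mem q h5).1 hq, hQQ]
      rw [this, e.left_inv h4]
  · have a1 := (hπ.differentiableAt (by simp)).hasFDerivAt
    have a2 : HasFDerivAt (fun q => G (e.symm (Q (G q))))
        (D.comp (fderiv ℝ (fun q => e.symm (Q (G q))) p)) p :=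
      HasFDerivAt.comp p (g := G) (by rw [hfix]; exact hD) a1
    have a3 : HasFDerivAt (fun q => G (e.symm (Q (G q)))) (Q.comp D) p :=
      (Q.hasFDerivAt.comp p hD).congr_of_eventuallyEq t3
    have a4 := congrArg (fun L : ST →L[ℝ] ST => L v) (a2.unique a3)
    have a5 : fderiv ℝ φ p v = 0 := by rw [loc_fd hL hW hp, hv, sub_self, mul_zero]
    apply hinj'
    simp only [ContinuousLinearMap.comp_apply] at a4
    rw [a4]
    simp [D, a5, hQQ]

theorem Ret.tendsto {p : ST} {π : ST → ST} (h : Ret F p π) : Tendsto π (𝓝 p) (𝓝[F.M] p) :=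
  tendsto_nhdsWithin_iff.2 ⟨by simpa only [ContinuousAt, h.fix] using h.sm.continuousAt,
    h.ev.mono fun _ hq => hq.1⟩

theorem Ret.comp_eq {G : Type} {p : ST} {π : ST → ST} (h : Ret F p π) (f : ST → G) :
    f =ᶠ[𝓝[F.M] p] f ∘ π := by
  filter_upwards [nhdsWithin_le_nhds h.ev, self_mem_nhdsWithin] with q h1 h2
  simp [h1.2.2 h2]

section
variable {G : Type} [NormedAddCommGroup G] [NormedSpace ℝ G]

theorem Ret.comp_sm {p : ST} {π : ST → ST} (h : Ret F p π) {f : ST → G} {m : ℕ∞}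
    (hf : ContDiffWithinAt ℝ m f F.M p) : ContDiffAt ℝ m (f ∘ π) p := by
  have h1 : ContDiffWithinAt ℝ m (f ∘ π) (π ⁻¹' F.M) p :=
    ContDiffWithinAt.comp p (by rw [h.fix]; exact hf)
      (h.sm.of_le (by exact_mod_cast le_top)).contDiffWithinAt (mapsTo_preimage _ _)
  exact h1.contDiffAt (h.ev.mono fun _ hq => hq.1)

/-- ambient extension of a function that is smooth on the track -/
theorem exists_ext (hF : F.Reg) {p : ST} (hp : p ∈ F.M) {f : ST → G} {m : ℕ∞}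
    (hf : ContDiffWithinAt ℝ m f F.M p) : ∃ g, ContDiffAt ℝ m g p ∧ f =ᶠ[𝓝[F.M] p] g :=
  let ⟨_, h⟩ := exists_ret hF hp
  ⟨_, h.comp_sm hf, h.comp_eq f⟩

/-- on tangent vectors `td` is the derivative of any ambient extension -/
theorem td_eq (hF : F.Reg) {p : ST} (hp : p ∈ F.M) {f g : ST → G} (hg : DifferentiableAt ℝ g p)
    (h : f =ᶠ[𝓝[F.M] p] g) {v : ST} (hv : Tn F p v) : F.td f p v = fderiv ℝ g p v := by
  obtain ⟨π, hπ⟩ := exists_ret hF hp
  have h0 : f p = g p := h.eq_of_nhdsWithin hp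
  have h1 : HasFDerivWithinAt f (F.td f p) F.M p :=
    (hg.differentiableWithinAt.congr_of_eventuallyEq h h0).hasFDerivWithinAt
  have hd := (hπ.sm.differentiableAt (by simp)).hasFDerivAt
  have h2 : HasFDerivAt (f ∘ π) ((F.td f p).comp (fderiv ℝ π p)) p :=
    (HasFDerivWithinAt.comp p (t := F.M) (s := π ⁻¹' F.M) (by rw [hπ.fix]; exact h1)
      hd.hasFDerivWithinAt (mapsTo_preimage _ _)).hasFDerivAt (hπ.ev.mono fun _ hq => hq.1)
  have h3 : HasFDerivAt (f ∘ π) ((fderiv ℝ g p).comp (fderiv ℝ π p)) p :=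
    (HasFDerivAt.comp p (by rw [hπ.fix]; exact hg.hasFDerivAt) hd).congr_of_eventuallyEq
      (hπ.tendsto.eventually h)
  have := congrArg (fun L : ST →L[ℝ] G => L v) (h2.unique h3)
  simpa [hπ.tan v hv] using this

end

theorem D_eq (hF : F.Reg) {p : ST} (hp : p ∈ F.M) {f g : ST → ℝ} (hg : DifferentiableAt ℝ g p)
    (h : f =ᶠ[𝓝[F.M] p] g) (a : Fin 3) : F.D a f p = fderiv ℝ g p (F.PL p (ee a), 0) :=
  td_eq hF hp hg h (tn_PL hF hp _)

theorem Dt_eq (hF : F.Reg) {p : ST} (hp : p ∈ F.M) {f g : ST → ℝ} (hg : DifferentiableAt ℝ g p)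
    (h : f =ᶠ[𝓝[F.M] p] g) : F.Dt f p = fderiv ℝ g p (F.V p • F.n p, 1) :=
  td_eq hF hp hg h (tn_T hF hp)

/-- the normal has a smooth ambient extension `N`, and `N` annihilates the kernel of `dφ` -/
theorem exists_normal {W : Set ST} {φ : ST → ℝ} (hL : F.Loc W φ) {p : ST} (hW : p ∈ W) :
    ContDiffAt ℝ ∞ (fun q : ST => ‖gradX φ q.1 q.2‖⁻¹ • gradX φ q.1 q.2) p ∧
      F.n =ᶠ[𝓝[F.M] p] fun q : ST => ‖gradX φ q.1 q.2‖⁻¹ • gradX φ q.1 q.2 := by
  have h1 := gradX_sm (hL.sm.contDiffAt (hL.isOpen.mem_nhds hW))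
  refine ⟨((h1.norm ℝ (hL.ne p hW)).inv (norm_ne_zero_iff.2 (hL.ne p hW))).smul h1, ?_⟩
  filter_upwards [nhdsWithin_le_nhds (hL.isOpen.mem_nhds hW), self_mem_nhdsWithin] with q h1 h2
  exact hL.n_eq q h1 h2

theorem n_ext (hF : F.Reg) {p : ST} (hp : p ∈ F.M) :
    ∃ N : ST → E, ContDiffAt ℝ ∞ N p ∧ F.n =ᶠ[𝓝[F.M] p] N :=
  let ⟨_, _, hW, hL⟩ := hF p hp
  ⟨_, exists_normal hL hW⟩

theorem sm_n (hF : F.Reg) : F.Sm F.n := fun _ hp =>
  let ⟨_, h1, h2⟩ := n_ext hF hp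
  h1.contDiffWithinAt.congr_of_eventuallyEq h2 (h2.eq_of_nhdsWithin hp)

end Crest.Agent.N250.MP

end
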